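import Vale.Agent.P014T.Ct.St
import Vale.Agent.P014T.Dr.Shp
import Vale.Agent.P014T.Pp.Glk
import Vale.Agent.P014T.Pp.Gs
import Vale.Agent.P014T.Pp.Rn0
import Vale.Agent.P014T.Ba.H7
import Vale.Agent.P004R.Mu0

/-! # P014T, block C-TOP, row DSC: descent to the bottom class -/

set_option linter.all false

open NumberField Matrix PowerSeries
open scoped Classical

noncomputable section

namespace Vale.Agent.P014T.Ct

open Vale.Agent.P022 (Qb GQ)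
open Vale.Agent.P004S (Pl)
open Vale.Agent.P004F (La Rj cj mj M2 sd)
open PadicInt (toZModPow)
open Dr (Hm Zn aa Gr Eu Fm Cd Ch cor Hm_le ch_iff)
open Pp (Bs Tw)
open Top (El nq)

namespace Ds

theorem aq {n N c M : ℕ} : Aq n N ∅ c M ↔ M ≠ 0 ∧ 2 ^ (n + 2) ∣ M ∧ N ∣ M ∧ M.Coprime c := by
  simp [Aq]

theorem gr {N D c : ℕ} {a : ℕ → ℤ} {b : Bs} (L : Lf N a D b) (c1 : c.Prime) (c2 : c ∉ b.S) (n : ℕ) :
    Gr (b.ρ n) (insert c b.S) a (Aq n N ∅ c) := by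
  have k {l M} (p : l.Prime) (h : l ≠ c) (m : Aq n N ∅ c M) : Aq n N ∅ c (M * l) := by
    rw [aq] at m ⊢
    exact ⟨mul_ne_zero m.1 p.ne_zero, m.2.1.mul_right _, m.2.2.1.mul_right _,
      m.2.2.2.mul_left ((Nat.coprime_primes p c1).2 h)⟩
  have s {l} (h : l ∉ insert c b.S) : l ∉ b.S := fun m => h (Finset.mem_insert_of_mem m)
  exact ⟨Finset.mem_insert_of_mem b.two, fun l P o h => (Pp.Gk.ug b n l P o (s h)).unr,
    fun l P φ o h f => ⟨(Pp.Gk.ug b n l P o (s h)).det φ f,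
      (AddMonoidHom.map_trace (toZModPow n) _).symm.trans (by
        rw [(L.gd l P o fun m => absurd m (s h)).2 φ f, map_intCast])⟩, fun M m => m.1,
    fun M => k Nat.prime_two fun e => c2 (e ▸ b.two),
    fun M l m p h _ => k p (fun e => h (e ▸ Finset.mem_insert_self ..)) m⟩

theorem lv_aq {n N c M : ℕ} {S : Finset ℕ} (v : Lv n N S M) (c1 : c.Prime) (c2 : c ∉ S) :
    Aq n N ∅ c M := aq.2 ⟨v.ne, v.two, v.dv, ((Nat.Prime.coprime_iff_not_dvd c1).2 fun d =>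
      c2 (v.pf ▸ Nat.mem_primeFactors.2 ⟨c1, d, v.ne⟩)).symm⟩

theorem lv_dvd {n N D M : ℕ} {a : ℕ → ℤ} {b : Bs} (L : Lf N a D b) (v : Lv n N b.S M) : D ∣ M := by
  rw [← Nat.prod_primeFactors_of_squarefree L.sqf]
  exact (Finset.prod_dvd_prod_of_subset _ _ _ fun p m => v.pf.symm ▸ L.bad p
    (Nat.prime_of_mem_primeFactors m) ((Nat.dvd_of_mem_primeFactors m).mul_left _)).trans
    (Nat.prod_primeFactors_dvd M)

/-- several primes at once -/
theorem odd_prod {n M : ℕ} {ρ : GQ →* M2 (Zn n)} {S : Finset ℕ} {a : ℕ → ℤ} {Ad : ℕ → Prop} {z : Fm n}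
    {R : Type} [CommRing R] {ι : Zn n →+* R} {Ψ : GQ →* R} (G : Gr ρ S a Ad) (E : Eu ρ S a Ad z)
    (m : Ad M) (c : Cd M Ψ) (pl : Pl) {T : Finset ℕ} (h : ∀ l ∈ T, l.Prime ∧ l ∉ S ∧ ¬ l ∣ M) :
    Ad (M * ∏ l ∈ T, l) ∧ ((∏ l ∈ T, l : ℕ) : R) • z (M * ∏ l ∈ T, l) R ι Ψ =
      (∏ l ∈ T, ((l : R) - a l * Ψ (pl.σ l) + Ψ (pl.σ l) ^ 2)) • z M R ι Ψ := by
  induction T using Finset.induction with
  | empty => simpa using m
  | insert q T hq ih =>
    obtain ⟨i1, i2⟩ := ih fun l m => h l (Finset.mem_insert_of_mem m)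
    obtain ⟨q1, q2, q3⟩ := h q (Finset.mem_insert_self ..)
    have d : ¬ q ∣ M * ∏ l ∈ T, l := fun e => (q1.dvd_mul.1 e).elim q3 fun e => by
      obtain ⟨l, m, e⟩ := (q1.prime.dvd_finset_prod_iff _).1 e
      exact hq ((Nat.prime_dvd_prime_iff_eq q1 (h l (Finset.mem_insert_of_mem m)).1).1 e ▸ m)
    rw [Finset.prod_insert hq, Finset.prod_insert hq, mul_comm q, ← mul_assoc]
    refine ⟨G.adl _ _ i1 q1 q2 d, ?_⟩
    rw [Nat.cast_mul, mul_smul, E.odd _ _ _ _ q _ _ i1 (c.mono ⟨_, rfl⟩) (pl.ov q q1) q2 d (pl.fb q q1),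
      smul_comm, i2, mul_smul]

/-- framed cocycles in the same class -/
theorem frame {R : Type} [CommRing R] {a : GQ → M2 R} {x x' : GQ → Fin 2 → R} {c : GQ}
    {gp w : Fin 2 → R} (h : Ch ⊤ a x x') (e : x c = 0) (e' : x' c = 0)
    (k : 1 + a c = vecMulVec gp w) : ∃ l : R, 2 • x = 2 • x' + l • db a gp := by
  obtain ⟨u, h⟩ := h
  have := h c trivial
  rw [e, e', sub_self, eq_comm, sub_eq_zero] at this
  have q : 2 • u = (w ⬝ᵥ u) • gp := by
    rw [two_smul, ← op_smul_eq_smul, ← vecMulVec_mulVec, ← k, add_mulVec, one_mulVec, this]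
  refine ⟨w ⬝ᵥ u, funext fun g => ?_⟩
  show 2 • x g = 2 • x' g + (w ⬝ᵥ u) • (a g - 1) *ᵥ gp
  rw [← mulVec_smul, ← q, mulVec_smul, sub_mulVec, one_mulVec, ← h g trivial, smul_sub, add_sub_cancel]

theorem ch_map {R R' : Type} [CommRing R] [CommRing R'] (p : R →+* R') {a : GQ → M2 R}
    {x x' : GQ → Fin 2 → R} (h : Ch ⊤ a x x') :
    Ch ⊤ (fun g => (a g).map p) (fun g => p ∘ x g) fun g => p ∘ x' g :=
  h.elim fun w e => ⟨p ∘ w, fun g m => funext fun i => by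
    simpa only [Pi.sub_apply, map_sub, RingHom.map_mulVec, Function.comp_apply] using
      congrArg (fun v => p (v i)) (e g m)⟩

theorem nq_eq {A B d A' B' : ℤ} {h : El A B} {N : ℕ} {a : ℕ → ℤ} {b : Bs}
    (q : Kx.Tw.Tq d A B A' B') (m : Mb h N a d b) {l : ℕ} (p : l.Prime) (s : l ∉ b.S) :
    nq A' B' l = l + 1 - sd d (b.pl.σ l) * a l := by
  have k : ∀ x, x ∣ 2 * N * d * (4 * A ^ 3 + 27 * B ^ 2) → ¬ (l : ℤ) ∣ x := fun x e f =>
    s (m.bad l p (.inl (f.trans e)))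
  have hd := k d ⟨2 * N * (4 * A ^ 3 + 27 * B ^ 2), by ring⟩
  rw [nq, q.a, q.b, Ba.al_tw p (k _ ⟨N * d, by ring⟩) hd, P004R.Mu.nu_fb (b.pl.ov l p)
    (fun e => s (e ▸ b.two)) (b.pl.fb l p) hd, not_not.1 fun e => s (m.bad l p (.inr e))]
  rfl

end Ds

open Ds

/-- **row DSC** -/
theorem dsc : DSC := fun A B h N a d A' B' b t c g₀ q m sc c2 tx hg j => by
  have hT l (e : l ∈ t.T j) : l.Prime ∧ l ∉ b.S :=
    ⟨Nat.prime_of_mem_primeFactors e, fun s => Pp.G0.out s e⟩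
  refine ⟨fun l e => ⟨(hT l e).1, (hT l e).2, fun k => tx.gq j l e (sd d (b.pl.σ l)) (by
    exact_mod_cast (sq _).trans (Kx.Tw.sd_sq _ _)) ?_⟩, fun M y n p v lv zy ev xz x₁ m₁ h₁ => ?_⟩
  · obtain ⟨l1, l2⟩ := hT l e
    have o := b.pl.ov l l1
    have e1 := (m.lf.gd l _ o fun s => absurd s l2).2 _ (b.pl.fb l l1)
    have e2 : (b.r (b.pl.σ l)).det = l := PadicInt.ext_of_toZModPow.1 fun n => by
      rw [map_natCast]
      exact ((toZModPow n).map_det _).trans ((Pp.Gk.ug b n l _ o l2).det _ (b.pl.fb l l1))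
    have e3 : (sd d (b.pl.σ l) : ℤ_[2]) * sd d (b.pl.σ l) = 1 := by exact_mod_cast Kx.Tw.sd_sq _ _
    rw [nq_eq q m l1 l2] at k
    rw [trace_fin_two] at e1
    rw [det_fin_two] at e2
    have := map_dvd (Int.castRingHom ℤ_[2]) k
    simp [det_fin_two] at this ⊢
    exact this.trans (dvd_of_eq (by
      linear_combination (sd d (b.pl.σ l) : ℤ_[2]) * e1 - e2 - (l : ℤ_[2]) * e3 -
        (sd d (b.pl.σ l) : ℤ_[2]) ^ 2 * e2 + e2))
  have G := gr m.lf sc.1 c2 (t.N j)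
  have a0 := lv_aq lv sc.1 c2
  obtain ⟨z, E, hz⟩ := Dr.shp _ _ _ _ _ _ G (zy.raw ∅ _ c (by simp [Dx])
    ⟨sc.1, sc.2.1, sc.2.2.of_mul_right _⟩ (Finset.mem_insert_self ..) (Finset.empty_subset _)) g₀ hg
  have ce : Cd M b.ε := m.lf.cd.mono (lv_dvd m.lf lv)
  have c0 : Cd M (en b n) := ce.map _
  have c1 : Cd (M * (t.c j * t.q j)) (t.Ψ j) := fun g k => by
    rw [t.hΨ, ce g (Hm_le (dvd_mul_right _ _) k),
      (t.tq j).ker g (Hm_le ((dvd_mul_right _ _).mul_left _) k), map_one, ZMod.val_zero, pow_zero, mul_one]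
  obtain ⟨a1, e1⟩ := odd_prod (ι := p.comp (t.ι j)) G E a0 c0 b.pl (T := t.T j) fun l e =>
    ⟨(hT l e).1, fun s => ((Pp.G0.mem_T (hT l e).1).1 e).elim
      (fun k => ((tx.tq j).cy l (hT l e).1 k).2 s) fun k => (Finset.mem_insert.1 s).elim
        (fun s => tx.ne j (((Nat.prime_dvd_prime_iff_eq (hT l e).1 (t.pq j).1).1 k).symm.trans s))
        (hT l e).2, fun k => (hT l e).2 (lv.pf ▸ Nat.mem_primeFactors.2 ⟨(hT l e).1, k, lv.ne⟩)⟩
  have pr : ∏ l ∈ t.T j, l = t.c j * t.q j := Nat.prod_primeFactors_of_squarefree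
    ((Nat.squarefree_mul ((Nat.Prime.coprime_iff_not_dvd (t.pq j).1).2 (t.pq j).2.2).symm).2
      ⟨(t.tq j).sq, (t.pq j).1.prime.squarefree⟩)
  have od : Odd (t.c j * t.q j) := Nat.not_even_iff_odd.1 fun e =>
    Pp.G0.out b.two ((Pp.G0.mem_T Nat.prime_two).2 (Nat.prime_two.dvd_mul.1 e.two_dvd))
  rw [pr] at a1 e1
  have pc (x) : p (cj _ x) = toZModPow n x := (ev (C x)).trans (by simp)
  have e2 : p.toMonoidHom.comp (t.Ψ j) = en b n := MonoidHom.ext fun g => by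
    show p (t.Ψ j g) = toZModPow n (b.ε g)
    rw [t.hΨ, map_mul, map_pow, pc, ev]
    simp
  have e3 : (fun g => (t.a j g).map p) = aa (b.ρ (t.N j)) (p.comp (t.ι j)) (en b n) :=
    funext fun g => (Dr.aa_map p g).trans (by rw [e2])
  have dl1 {R : Type} [CommRing R] (ι : Zn (t.N j) →+* R) (f : ℤ_[2] →+* R) :
      ι (b.ρ (t.N j) g₀ - 1).det = f (dl b g₀) := by
    rw [← Pp.io_eq ι f, dl, (toZModPow _).map_det, map_sub, map_one]; rfl
  have h2 := (hz _ _ (t.ι j) _ a1 c1).2.1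
  have h3 := (hz _ _ (p.comp (t.ι j)) _ a0 c0).2.1
  rw [dl1 _ (cj _), ← map_pow] at h2
  rw [dl1 _ (toZModPow n), ← map_pow] at h3
  have h4 := ch_map p (show Ch ⊤ (t.a j) (cj _ (dl b g₀ ^ 2) • x₁) _ from ch_iff.2
    (((map_smul _ _ _).trans (congrArg _ (ch_iff.1 h₁))).trans
      ((map_smul _ _ _).symm.trans (ch_iff.1 h2).symm)))
  rw [e3, show (fun g => p ∘ z _ _ (t.ι j) (t.Ψ j) g) = z _ _ (p.comp (t.ι j)) (en b n) from
    funext fun g => funext fun i => (E.map _ _ _ p _ _ g i a1).trans (by rw [e2])] at h4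
  have e4 : ∏ l ∈ t.T j, ((l : Zn n) - a l * en b n (b.pl.σ l) + en b n (b.pl.σ l) ^ 2) =
      (∏ l ∈ t.T j, nq A' B' l : ℤ) := by
    rw [Int.cast_prod]
    refine Finset.prod_congr rfl fun l e => ?_
    have : en b n (b.pl.σ l) = sd d (b.pl.σ l) := 
      (congrArg (toZModPow n) (m.ε _)).trans (map_intCast _ _)
    rw [nq_eq q m (hT l e).1 (hT l e).2, this, sq, ← Int.cast_mul (sd _ _), Kx.Tw.sd_sq]
    push_cast
    ring
  obtain ⟨w, hw⟩ := b.cj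
  obtain ⟨l, hl⟩ := frame (x := ((∏ l ∈ t.T j, nq A' B' l : ℤ) : Zn n) • v)
    (x' := ((t.c j * t.q j : ℕ) : Zn n) • fun g => p ∘ (cj _ (dl b g₀ ^ 2) • x₁) g)
    (gp := toZModPow n ∘ b.gp) (w := toZModPow n ∘ w) (c := b.c) (ch_iff.2 (by
      rw [map_smul, map_smul, ch_iff.1 h4, ch_iff.1 xz.ch, ← ch_iff.1 h3, ← map_smul, ← map_smul, e1, e4]))
    (by rw [Pi.smul_apply, xz.mem.2.2.2, smul_zero])
    (funext fun i => by simp [m₁.2.2.2]) (by
      rw [Pp.aa_eq b _ (toZModPow n), 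
        show en b n b.c = 1 from (congrArg (toZModPow n) b.εc).trans (map_one _), one_smul]
      ext i i'
      simpa [vecMulVec_apply, one_apply, apply_ite (toZModPow n)] using
        congrArg (toZModPow n) (congrFun₂ hw i i'))
  refine ⟨(t.c j * t.q j : ℕ), l, od.natCast, ?_⟩
  rw [e3, smul_comm, ← Int.cast_smul_eq_zsmul (Zn n), hl]
  congr 1
  funext g i
  simp [map_ofNat]
  ring

end Vale.Agent.P014T.Ct
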