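import Vale.Agent.P014T.Ct.St
import Vale.Agent.P014T.Ba.Mc

/-! # P014T, block C-TOP: from matrices to points -/

set_option autoImplicit false
set_option linter.all false

open NumberField Matrix Set
open scoped Classical

noncomputable section

namespace Vale.Agent.P014T.Ct

open Vale.Agent.P022 (GQ)
open Vale.Agent.P004F (M2 sd hq)
open Vale.Agent.P004F.Pr (ac)
open P004M.TE (Pt ga)
open P027M.K (TM)
open PadicInt (toZModPow)
open Dr (Zn)
open Pq (Zq)
open Pp (Bs)
open Top (El sg)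
open Bt (dd Gp)
open Kx.Tw (Tq tw)
open Ew (cz ct)

/-- base change of a presentation -/
theorem Pr.bc {R R' : Type} [CommRing R] [CommRing R'] {a : GQ → M2 R} {T : Finset ℕ} {c : GQ}
    {r : ℕ} {Q : Matrix (Fin r) (Fin (r + 2)) R} {u} (h : Pr a T c Q u) (p : R →+* R') :
    BijOn (fun y g => (u g).map p *ᵥ y) {y | Q.map p *ᵥ y = 0} (Zq R' T (fun g => (a g).map p) c) :=
  letI := Module.compHom R' p
  h R'

theorem mp_vec {R R' m k : Type} [CommRing R] [CommRing R'] [Fintype k] (p : R →+* R')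
    (A : Matrix m k R) (v : k → R) : A.map p *ᵥ (p ∘ v) = p ∘ (A *ᵥ v) :=
  funext fun i => (p.map_mulVec A v i).symm

variable {A B d A' B' : ℤ} {h : El A B} {N : ℕ} {a : ℕ → ℤ} {b : Bs}

theorem ga_t (T : Tq d A B A' B') (g : GQ) (y : Pt A B) :
    ga g (tw T y) = tw T (sd d g • ga g y) := by rw [Kx.Tw.ga_tw, map_zsmul]

theorem Mb.act (M : Mb h N a d b) (n : ℕ) (g : GQ) : en b n g • b.ρ n g =
    (sd d g : Zn n) • (P004M.TE.mt (hq h) g).map (toZModPow n) := by
  rw [← M.r, ← map_intCast (toZModPow n), ← M.ε]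
  rfl

theorem Mb.fix (M : Mb h N a d b) :
    (sd d b.c : ℤ_[2]) • P004M.TE.mt (hq h) b.c *ᵥ b.gp = b.gp := by
  rw [← M.ε, ← M.r, b.εc, one_smul, b.fix]

/-- **row FIN** -/
theorem fin : FIN := by
  intro A B h N a d A' B' T b S R _ α r n Q u v w gp x p Q₀ v₀ w₀ β k l M hP cv cw hα hg hQ hv hw q1 q2
    hβ ok g G e j ej jn hj
  have X := Ew.xy_ct (hq h) (tw T) (ga_t T) fun g => (hα g).trans (M.act n g)
  have key : ∀ j, j ≤ n → Nat.card (Ba.Kr (Q₀.map (toZModPow j))) = Top.cz A' B' S b.c j ∧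
      Ba.sp (fun k => toZModPow j (v₀ k)) (fun k => toZModPow j (w₀ k)) =
        sg g n j (cz (ct (hq h) (tw T) n) (k • (fun g => p ∘ x g) +
          l • db (fun g => (α g).map p) (toZModPow n ∘ b.gp))) := fun j le => by
    let f := ZMod.castHom (pow_dvd_pow 2 le) (Zn j)
    have c : ∀ y, f (toZModPow n y) = toZModPow j y := fun y =>
      DFunLike.congr_fun (PadicInt.zmod_cast_comp_toZModPow j n le) y
    have cv' : ∀ {ι : Type} {s : ι → R} {t : ι → ℤ_[2]}, p ∘ s = toZModPow n ∘ t →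
        f.comp p ∘ s = toZModPow j ∘ t := fun e => funext fun i =>
      (congrArg f (congrFun e i)).trans (c _)
    have ha : ∀ g, (α g).map (f.comp p) =
        (sd d g : Zn j) • (P004M.TE.mt (hq h) g).map (toZModPow j) := fun g => Matrix.ext fun s t => by
      have := congrArg f (congrFun (congrFun ((hα g).trans (M.act n g)) s) t)
      simpa only [map_apply, Matrix.smul_apply, smul_eq_mul, map_mul, map_intCast, c,
        RingHom.comp_apply] using this
    obtain ⟨k1, k2⟩ := Ew.fin (hq h) (T.hD h) b.cc (tw T) (ga_t T) ha M.fix M.pv _ _ (hP.bc (f.comp p))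
      (v := f.comp p ∘ v) (w := f.comp p ∘ w) (by rw [mp_vec, cv.1]; exact funext fun _ => map_zero _)
      (by rw [mp_vec, cw.1]; exact funext fun _ => map_zero _) (fun g => by
        rw [mp_vec, cv.2, db, ← mp_vec, cv' hg, Matrix.map_sub _ (map_sub _),
          Matrix.map_one _ (map_zero _) (map_one _)]) G
    rw [show Q.map (f.comp p) = Q₀.map (toZModPow j) from Matrix.ext fun s t =>
      (congrArg f (congrFun (congrFun hQ s) t)).trans (c _)] at k1
    rw [cv' hv] at k2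
    nth_rw 1 [cv' hw] at k2
    refine ⟨k1, k2.trans ?_⟩
    simp only [mp_vec, cw.2]
    rw [show (fun g => f.comp p ∘ x g) = fun g => f ∘ p ∘ x g from rfl, Ew.cz_red' _ _ le, sg, map_add,
      map_zsmul, nsmul_add, smul_comm _ k, ← Ew.sp_odd (k := n) (by
        rw [smul_comm, Ew.cz_tor, nsmul_zero]) ok]
    refine Ew.sp_congr rfl ?_
    rw [sub_add_cancel_left, Ew.cz_smul, smul_comm, show cz _ (db _ _) = _ from X.cz_cob _,
      ← map_nsmul, ← Ew.ct_red _ _ le f, show f ∘ toZModPow n ∘ b.gp = toZModPow j ∘ b.gp from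
        funext fun _ => c _, ← Ew.cp_tv, Ew.gp_zm (T.hD h) b.cc G (Ew.gp_tv (hq h) (tw T) (ga_t T) M.fix M.pv)]
    exact neg_mem (nsmul_mem (AddSubgroup.mem_zmultiples _) _)
  obtain ⟨m1, m2⟩ := Ba.mc0 _ Q₀ q1 q2 hβ ej ((key j jn).2 ▸ hj)
  exact ⟨(key n le_rfl).1 ▸ m1 n (by omega), by rw [← (key j jn).1, ← (key j jn).2, m2]⟩

end Vale.Agent.P014T.Ct
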