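import Vale.Agent.P014T.Ct.St
import Vale.Agent.P014T.Ba.Tw0

/-! # P014T, block C-TOP: row FRM, framed cocycles in the corestricted classes (helper7) -/

set_option autoImplicit false
set_option linter.all false

open Matrix

noncomputable section

namespace Vale.Agent.P014T.Ct

open Vale.Agent.P022 (GQ IsConj)
open Vale.Agent.P004F (M2)
open Dr
open Pq (Zq)
open Ba.Tt (sum_inv conj_out conj_sq)

namespace Fr

variable {A R : Type} [CommRing A] [CommRing R] {c : GQ}

/-- a corestriction is the coboundary of a smooth vector at an involution which acts freely -/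
theorem cr_fr {a : GQ →* M2 A} {H : Subgroup GQ} [n : H.Normal] [Fintype (GQ ⧸ H)]
    {y : GQ → Fin 2 → A} (co : Co H a y) (o : IsOpen (H : Set GQ)) (c2 : c * c = 1) (hc : c ∉ H) :
    ∃ m, cr a H y c = a c *ᵥ m - m ∧ ∃ W : Subgroup GQ, IsOpen (W : Set GQ) ∧ ∀ w ∈ W, a w *ᵥ m = m := by
  have ci : c⁻¹ = c := inv_eq_of_mul_eq_one_right c2
  have m (x : GQ ⧸ H) : x.out⁻¹ * c * (c • x).out ∈ H := by
    rw [mul_assoc, ← QuotientGroup.eq, ← smul_eq_mul, MulAction.Quotient.mk_smul_out, smul_smul, c2,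
      one_smul, QuotientGroup.out_eq']
  have s2 (x : GQ ⧸ H) : c • c • x = x := by rw [smul_smul, c2, one_smul]
  obtain ⟨S, hS⟩ := sum_inv (fun x : GQ ⧸ H => c • x) s2 fun x e => hc (by
    have := m x
    rw [e] at this
    simpa [mul_assoc] using n.conj_mem _ this x.out)
  obtain ⟨W, h1, h2⟩ := co.lc
  refine ⟨-∑ x ∈ S, a x.out *ᵥ y (x.out⁻¹ * c * (c • x).out), ?_, (W ⊓ H).normalCore,
    P022K.GW.Pl.core_open (h1.inter o), fun w k => ?_⟩
  · rw [cr, finsum_eq_sum_of_fintype, ci, hS, mulVec_neg, mulVec_sum, neg_sub_neg,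
      ← Finset.sum_sub_distrib]
    refine Finset.sum_congr rfl fun x _ => ?_
    have := co.inv (H.inv_mem (m x))
    rw [inv_inv, show (x.out⁻¹ * c * (c • x).out)⁻¹ = (c • x).out⁻¹ * (c * x.out) by
      rw [_root_.mul_inv_rev, _root_.mul_inv_rev, inv_inv, ci]] at this
    rw [s2, mul_assoc (c • x).out⁻¹, eq_neg_of_add_eq_zero_left this, mulVec_neg, mulVec_mulVec,
      mulVec_mulVec, ← map_mul, ← map_mul, mul_inv_cancel_left, sub_eq_add_neg]
  · have z (g : GQ) := (W ⊓ H).normalCore_le (Subgroup.Normal.conj_mem' inferInstance _ k g)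
    rw [mulVec_neg, mulVec_sum]
    refine congrArg _ (Finset.sum_congr rfl fun x _ => ?_)
    generalize x.out⁻¹ * c * (c • x).out = h, m x = b
    have e := co.coc _ (z x.out).2 h b
    rw [show x.out⁻¹ * w * x.out * h = h * ((x.out * h)⁻¹ * w * (x.out * h)) by group,
      co.coc _ b _ (z _).2, h2 _ (z _).1 (z _).2, h2 _ (z _).1 (z _).2, mulVec_zero, add_zero,
      zero_add] at e
    rw [← sub_eq_zero, ← cj_cob, ← e, sub_self, mulVec_zero]

/-- the universal ring of two characters -/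
theorem ex_ring {O : Type} [CommRing O] (ι : O →+* R) (Ψ Ψ' : GQ →* R) (h : ∀ g, 2 ∣ Ψ g - Ψ' g) :
    ∃ (A : Type) (_ : CommRing A) (j : O →+* A) (Φ : GQ →* A) (f f' : A →+* R),
      f.comp j = ι ∧ f'.comp j = ι ∧ f.toMonoidHom.comp Φ = Ψ ∧ f'.toMonoidHom.comp Φ = Ψ' ∧
      (∀ g, Ψ g = 1 → Ψ' g = 1 → Φ g = 1) ∧ (∀ x, 2 ∣ f x - f' x) ∧
      ∀ d, (∀ v, d * v = 0 → ι v = 0) → ∀ x, j d * x = 0 → f x = 0 ∧ f' x = 0 := by
  let Γ := (Ψ.prod Ψ').toHomUnits.range
  let p : Γ →* R × R := (Units.coeHom _).comp Γ.subtype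
  let L (q : R × R →* R) : MonoidAlgebra O Γ →+* R :=
    MonoidAlgebra.liftNCRingHom ι (q.comp p) fun _ _ => Commute.all _ _
  have s q g v : L q (MonoidAlgebra.single g v) = ι v * q (p g) := MonoidAlgebra.liftNC_single ..
  have k q d (e : ∀ v, d * v = 0 → ι v = 0) x (z : algebraMap O _ d * x = 0) : L q x = 0 := by
    rw [← Algebra.smul_def] at z
    rw [← MonoidAlgebra.sum_single x, Finsupp.sum, map_sum]
    exact Finset.sum_eq_zero fun g _ => by
      rw [s, e _ (by simpa using congrArg (·.coeff g) z), zero_mul]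
  refine ⟨MonoidAlgebra O Γ, inferInstance, algebraMap _ _,
    (MonoidAlgebra.of O Γ).comp (Ψ.prod Ψ').toHomUnits.rangeRestrict, L (.fst _ _), L (.snd _ _),
    RingHom.ext fun v => (s _ 1 v).trans (by simp), RingHom.ext fun v => (s _ 1 v).trans (by simp),
    MonoidHom.ext fun g => (s _ _ 1).trans (by rw [map_one, one_mul]; rfl),
    MonoidHom.ext fun g => (s _ _ 1).trans (by rw [map_one, one_mul]; rfl), fun g a b => ?_,
    fun x => ?_, fun d e x z => ⟨k _ d e x z, k _ d e x z⟩⟩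
  · rw [MonoidHom.comp_apply, show (Ψ.prod Ψ').toHomUnits.rangeRestrict g = 1 from
      Subtype.ext (Units.ext (Prod.ext a b)), map_one]
  · induction x using MonoidAlgebra.induction_linear with
    | zero => simp
    | add x y a b => rw [map_add, map_add, add_sub_add_comm]; exact dvd_add a b
    | single g v =>
      obtain ⟨_, g, rfl⟩ := g
      rw [s, s, ← mul_sub]
      exact (h g).mul_left _

end Fr

open Fr in
/-- **row FRM** -/
theorem frm : FRM := fun n ρ S a Ad y G Ra g₀ hg M R _ ι Ψ Ψ' T c k m d4 pf cd cd' h an hc ug => by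
  obtain ⟨A, _, j, Φ, f, f', e1, e2, e3, e4, one, cg, kl⟩ := ex_ring ι Ψ Ψ' fun g => (h g).2.2
  obtain ⟨z, E, hz⟩ := shp n ρ S a Ad y G Ra g₀ hg
  have d : Cd M Φ := fun g b => one g (cd g b) (cd' g b)
  obtain ⟨co, ⟨w, ch⟩, -⟩ := hz M A j Φ m d
  have o := Hm_open (G.pos M m)
  have := (Hm M).quotient_finite_of_isOpen o
  have := Fintype.ofFinite (GQ ⧸ Hm M)
  obtain ⟨v, hv, W, o1, l1⟩ := cr_fr ((Ra.co M m).lf (ι := j) d) o (conj_sq hc)
    fun b => conj_out hc (by norm_num : 2 < 4) (Hm_le d4 b)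
  obtain ⟨W', o2, l2⟩ := co.lc
  have key (p : A →+* R) (χ : GQ →* R) (q1 : p.comp j = ι) (q2 : p.toMonoidHom.comp Φ = χ)
      (q3 : ∀ x, j ((ρ g₀ - 1).det ^ 2) * x = 0 → p x = 0) :
      (fun g => p ∘ (cor ρ j Φ (Hm M) (y M) g - (aa ρ j Φ g *ᵥ v - v))) ∈ Zq R T (aa ρ ι χ) c ∧
      Ch ⊤ (aa ρ ι χ) (fun g => p ∘ (cor ρ j Φ (Hm M) (y M) g - (aa ρ j Φ g *ᵥ v - v)))
        (cor ρ ι χ (Hm M) (y M)) := by
    have mv g (u : Fin 2 → A) : aa ρ ι χ g *ᵥ (p ∘ u) = p ∘ (aa ρ j Φ g *ᵥ u) := funext fun i => by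
      rw [← q1, ← q2, ← aa_map]; exact (p.map_mulVec _ u i).symm
    have z0 : p ∘ (0 : Fin 2 → A) = 0 := funext fun _ => p.map_zero
    refine ⟨⟨fun g g' => ?_, ⟨W ⊓ W', o1.inter o2, fun g b => ?_⟩, fun i ⟨l, b, P, ov, hi⟩ => ?_, ?_⟩,
      p ∘ (-v), fun g _ => ?_⟩
    · show p ∘ _ = p ∘ _ + aa ρ ι χ g *ᵥ _
      rw [mv, co.coc g trivial g' trivial, aa_mul, ← mulVec_mulVec, mulVec_sub, mulVec_sub]
      funext i
      simp only [Function.comp, Pi.add_apply, Pi.sub_apply, map_add, map_sub]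
      ring
    · show p ∘ _ = 0
      rw [l2 g b.2 trivial, show aa ρ j Φ g *ᵥ v = v from l1 g b.1, sub_self, sub_self, z0]
    · have e := d i (inert_Hm ov (fun q => b (pf (Nat.mem_primeFactors.2 ⟨ov.1, q, G.pos M m⟩))) hi)
      have r := aa_eq_one (ι := j) ((ug l P ov b).unr i hi) e
      have := ch i trivial
      rw [unr0 G E m d (fun g => nil_of_pow (nil2 j) (k := k) (by
        rw [← map_pow]; exact one _ (by rw [map_pow, (h g).1]) (by rw [map_pow, (h g).2.1])))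
        (ug l P ov b) hi e, r, one_mulVec, sub_self, zero_sub, neg_eq_zero, ← map_pow] at this
      show p ∘ _ = 0
      rw [r, one_mulVec, sub_self, sub_zero]
      exact funext fun i => q3 _ (congrFun this i)
    · show p ∘ _ = 0
      rw [show cor ρ j Φ (Hm M) (y M) c = _ from hv, show am ρ j Φ c = aa ρ j Φ c from rfl, sub_self, z0]
    · have e : p ∘ cor ρ j Φ (Hm M) (y M) g = cor ρ ι χ (Hm M) (y M) g := funext fun i => by
        simp only [cor, finsum_eq_sum_of_fintype, Function.comp, Finset.sum_apply, map_sum,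
          RingHom.map_mulVec, aa_map, q1, q2]
        rw [← q1]; rfl
      rw [mv, ← e, mulVec_neg]
      funext i
      simp only [Function.comp, Pi.neg_apply, Pi.sub_apply, map_neg, map_sub]
      ring
  have a1 := key f Ψ e1 e3 fun x b => (kl _ an x b).1
  have a2 := key f' Ψ' e2 e4 fun x b => (kl _ an x b).2
  exact ⟨_, a1.1, _, a2.1, a1.2, a2.2, fun g i => cg _⟩

end Vale.Agent.P014T.Ct
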