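import Vale.Agent.P014T.Ct.St
import Vale.Agent.P014T.Pp.Pzx
import Vale.Agent.P014T.Dr.Shp

/-! # P014T, block C-TOP: shared lemmas (helper45) -/

set_option autoImplicit false
set_option linter.all false

open NumberField Matrix PowerSeries
open scoped Classical

noncomputable section

namespace Vale.Agent.P014T.Ct.B0

open Vale.Agent.P022 (Qb GQ IsConj)
open Vale.Agent.P027M.S (Inert)
open Vale.Agent.P022E.GW (Ov Fb)
open Vale.Agent.P022K.G2 (In)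
open Vale.Agent.P004S (Pl)
open Vale.Agent.P004F (La Rj cj mj M2)
open PadicInt (toZModPow)
open Dr (Hm Ha Zn aa am Gr Raw Eu Fm Cd Ch Co cor Ug Hm_le)
open Pq (Zq)
open Pp (Bs Tw)

section ch

variable {R R' : Type} [CommRing R] [CommRing R'] {H : Subgroup GQ} {a : GQ → M2 R}
  {x y z x' y' : GQ → Fin 2 → R} {T : Finset ℕ} {c : GQ}

theorem ch_refl (x : GQ → Fin 2 → R) : Ch H a x x := ⟨0, fun g _ => by simp⟩

theorem ch_symm (h : Ch H a x y) : Ch H a y x := Dr.ch_iff.2 (Dr.ch_iff.1 h).symm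

theorem ch_trans (h : Ch H a x y) (k : Ch H a y z) : Ch H a x z :=
  Dr.ch_iff.2 ((Dr.ch_iff.1 h).trans (Dr.ch_iff.1 k))

theorem ch_smul (s : R) (h : Ch H a x y) : Ch H a (s • x) (s • y) :=
  Dr.ch_iff.2 (by rw [map_smul, map_smul, Dr.ch_iff.1 h])

theorem ch_add (h : Ch H a x y) (k : Ch H a x' y') : Ch H a (x + x') (y + y') :=
  Dr.ch_iff.2 (by rw [map_add, map_add, Dr.ch_iff.1 h, Dr.ch_iff.1 k])

theorem ch_map (f : R →+* R') (h : Ch H a x y) :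
    Ch H (fun g => (a g).map f) (fun g => f ∘ x g) fun g => f ∘ y g :=
  h.elim fun w e => ⟨f ∘ w, fun g m => funext fun i => by
    show f _ - f _ = ((a g).map f *ᵥ (f ∘ w)) i - f _
    rw [← RingHom.map_mulVec, ← map_sub, ← map_sub]
    exact congrArg (fun v => f (v i)) (e g m)⟩

theorem zq_smul (s : R) (h : x ∈ Zq R T a c) : s • x ∈ Zq R T a c :=
  ⟨fun g k => by
    show s • x _ = s • x _ + a g *ᵥ s • x _
    rw [h.1, mulVec_smul, smul_add]; rfl,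
    h.2.1.imp fun W w => ⟨w.1, fun g m => by simp [w.2 g m]⟩, fun g m => by simp [h.2.2.1 g m],
    by simp [h.2.2.2]⟩

theorem zq_mono {T' : Finset ℕ} (s : T ⊆ T') (h : x ∈ Zq R T a c) : x ∈ Zq R T' a c :=
  ⟨h.1, h.2.1, fun g m => h.2.2.1 g (P022K.G2.In_anti (Finset.coe_subset.2 s) m), h.2.2.2⟩

theorem zq_map (f : R →+* R') (h : x ∈ Zq R T a c) :
    (fun g => f ∘ x g) ∈ Zq R' T (fun g => (a g).map f) c :=
  have z : ∀ {g}, x g = 0 → f ∘ x g = 0 := fun e => funext fun i => by simp [e]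
  ⟨fun g k => funext fun i => by
    show f (x _ i) = f _ + ((a g).map f *ᵥ (f ∘ x k)) i
    rw [h.1, ← RingHom.map_mulVec, ← map_add]; rfl,
    h.2.1.imp fun W w => ⟨w.1, fun g m => z (w.2 g m)⟩, fun g m => z (h.2.2.1 g m), z h.2.2.2⟩

/-- **framed cocycles in the same class** -/
theorem fd {gp v : Fin 2 → R} (e : 1 + a c = vecMulVec gp v) (h : Ch ⊤ a x y) (hx : x c = 0)
    (hy : y c = 0) : ∃ l : R, (2 : R) • x = (2 : R) • y + l • db a gp := by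
  obtain ⟨w, k⟩ := h
  have k0 := k c trivial
  rw [hx, hy, sub_self, eq_comm, sub_eq_zero] at k0
  have k1 : (2 : R) • w = (v ⬝ᵥ w) • gp := by
    have := congrArg (· *ᵥ w) e
    simp only [add_mulVec, one_mulVec, k0, vecMulVec_mulVec, op_smul_eq_smul] at this
    rw [two_smul, this]
  refine ⟨v ⬝ᵥ w, funext fun g => ?_⟩
  rw [Pi.add_apply, Pi.smul_apply, Pi.smul_apply, Pi.smul_apply, db, ← mulVec_smul, ← k1,
    mulVec_smul, ← smul_add, sub_mulVec, one_mulVec, ← k g trivial, add_sub_cancel]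

end ch

section eu

variable {n M : ℕ} {ρ : GQ →* M2 (Zn n)} {R R' : Type} [CommRing R] [CommRing R']
  {ι : Zn n →+* R} {Ψ : GQ →* R} {S : Finset ℕ} {a : ℕ → ℤ} {Ad : ℕ → Prop} {z : Fm n}

theorem cor_map (m : M ≠ 0) (f : R →+* R') (y : GQ → Fin 2 → Zn n) (g : GQ) :
    f ∘ cor ρ ι Ψ (Hm M) y g = cor ρ (f.comp ι) (f.toMonoidHom.comp Ψ) (Hm M) y g := by
  have := (Hm M).quotient_finite_of_isOpen (Dr.Hm_open m)
  have := Fintype.ofFinite (GQ ⧸ Hm M)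
  funext i
  simp only [cor, finsum_eq_sum_of_fintype, Function.comp, Finset.sum_apply, map_sum,
    RingHom.map_mulVec, Dr.aa_map]
  rfl

/-- the norm relation for a set of new primes -/
theorem eu_prod (G : Gr ρ S a Ad) (E : Eu ρ S a Ad z) (pl : Pl) (m : Ad M) (c : Cd M Ψ)
    (C : Finset ℕ) (h : ∀ l ∈ C, l.Prime ∧ l ∉ S ∧ ¬ l ∣ M) : Ad (M * ∏ l ∈ C, l) ∧
      (∏ l ∈ C, (l : R)) • z (M * ∏ l ∈ C, l) R ι Ψ =
        (∏ l ∈ C, (l - a l * Ψ (pl.σ l) + Ψ (pl.σ l) ^ 2)) • z M R ι Ψ := by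
  induction C using Finset.induction_on with
  | empty => simpa using m
  | insert l C hl ih =>
    obtain ⟨i1, i2⟩ := ih fun k e => h k (Finset.mem_insert_of_mem e)
    obtain ⟨p, s, d⟩ := h l (Finset.mem_insert_self _ _)
    have d' : ¬ l ∣ M * ∏ k ∈ C, k := fun e => (p.dvd_mul.1 e).elim d fun e => by
      obtain ⟨k, k1, k2⟩ := (p.prime.dvd_finset_prod_iff _).1 e
      exact hl ((Nat.prime_dvd_prime_iff_eq p (h k (Finset.mem_insert_of_mem k1)).1).1 k2 ▸ k1)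
    simp only [Finset.prod_insert hl]
    rw [mul_comm l, ← mul_assoc, mul_comm (l : R), mul_smul, E.odd _ _ ι Ψ l _ _ i1
      (c.mono (dvd_mul_right _ _)) (pl.ov l p) s d' (pl.fb l p), smul_comm, i2, smul_smul]
    exact ⟨G.adl _ _ i1 p s d', rfl⟩

end eu

variable {N D : ℕ} {a : ℕ → ℤ} {b : Bs}

theorem ug_of (L : Lf N a D b) (n : ℕ) {l : ℕ} {P : Ideal (𝓞 Qb)} (o : Ov l P)
    (h : l ∈ b.S → l ∈ b.σ ∧ ¬ l ∣ N) : Ug (b.ρ n) l P :=
  have l2 : l ≠ 2 := fun e => (b.sub _ (h (e ▸ b.two)).1).2 e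
  ⟨o, l2, fun i m => (congrArg (toZModPow n).mapMatrix ((L.gd l P o h).1 i m)).trans (map_one _),
    fun φ f => ((toZModPow n).map_det _).symm.trans ((congrArg _ (b.det φ)).trans
      (Pp.Gk.cz_mod fun z hz => Dr.root_cong o (Dr.nd_two o l2 n) f hz))⟩

/-- the data of the Euler systems -/
theorem gr_of (L : Lf N a D b) (n : ℕ) {S s : Finset ℕ} {c : ℕ} (h2 : 2 ∈ S) (hc : Sm N c) (cS : c ∈ S)
    (hs : Dx N s) (sS : s ⊆ S) (h : ∀ l ∉ S, l ∈ b.S → l ∈ b.σ ∧ ¬ l ∣ N) :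
    Gr (b.ρ n) S a (Aq n N s c) := by
  have k : ∀ {M l : ℕ}, Aq n N s c M → l.Prime → l ≠ c → l ∉ s → Aq n N s c (M * l) :=
    fun {M l} m p e e' => ⟨mul_ne_zero m.1 p.ne_zero, m.2.1.mul_right _, m.2.2.1.mul_right _,
      Nat.Coprime.mul_left m.2.2.2.1 ((Nat.coprime_primes p hc.1).2 e), fun q hq d =>
        m.2.2.2.2 q hq (Nat.Coprime.dvd_of_dvd_mul_right (Nat.Coprime.pow_left _
          ((Nat.coprime_primes (hs q hq).1 p).2 fun r => e' (r ▸ hq))) d)⟩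
  refine ⟨h2, fun l P o m => (ug_of L n o (h l m)).unr, fun l P φ o m f =>
    ⟨(ug_of L n o (h l m)).det φ f, ?_⟩, fun M m => m.1, fun M m => k m Nat.prime_two
      (by have := hc.2.1; omega) fun e => (hs 2 e).2.1 rfl,
    fun M l m p e _ => k m p (fun r => e (r ▸ cS)) fun r => e (sS r)⟩
  rw [← map_intCast (toZModPow n), ← (L.gd l P o (h l m)).2 φ f]
  exact (AddMonoidHom.map_trace (toZModPow n) _).symm

theorem sm_mono {c : ℕ} (h : Sm (N * D) c) : Sm N c := ⟨h.1, h.2.1, h.2.2.of_mul_right _⟩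

/-- the unit system -/
theorem gr_un (L : Lf N a D b) (n : ℕ) {c : ℕ} (hc : Sm N c) :
    Gr (b.ρ n) (insert c b.S) a (Aq n N ∅ c) :=
  gr_of L n (Finset.mem_insert_of_mem b.two) hc (Finset.mem_insert_self _ _) (by simp [Dx])
    (Finset.empty_subset _) fun l m e => (m (Finset.mem_insert_of_mem e)).elim

theorem raw_un {n c : ℕ} {y : Fy n} (Z : Zy (b.ρ n) N a y) (hc : Sm N c) :
    Raw (b.ρ n) (insert c b.S) a (Aq n N ∅ c) (y ∅ c) :=
  Z.raw _ _ _ (by simp [Dx]) hc (Finset.mem_insert_self _ _) (Finset.empty_subset _)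

theorem lv_aq {n M c : ℕ} (h : Lv n N b.S M) (hc : c.Prime) (cS : c ∉ b.S) : Aq n N ∅ c M :=
  ⟨h.ne, h.two, h.dv, ((Nat.Prime.coprime_iff_not_dvd hc).2 fun d =>
    cS (h.pf ▸ Nat.mem_primeFactors.2 ⟨hc, d, h.ne⟩)).symm, by simp⟩

theorem lv_D (L : Lf N a D b) {n M : ℕ} (h : Lv n N b.S M) : D ∣ M :=
  (Nat.prod_primeFactors_of_squarefree L.sqf).symm.dvd.trans ((Finset.prod_dvd_prod_of_subset _ _ _
    fun p m => h.pf ▸ L.bad p (Nat.prime_of_mem_primeFactors m)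
      ((Nat.dvd_of_mem_primeFactors m).mul_left _)).trans (Nat.prod_primeFactors_dvd M))

theorem lv_en (L : Lf N a D b) {n M : ℕ} (h : Lv n N b.S M) (k : ℕ) : Cd M (en b k) := fun g m => by
  show toZModPow k (b.ε g) = 1
  rw [L.cd g (Hm_le (lv_D L h) m), map_one]

/-- the Frobenius at a smoothing prime -/
theorem eps_sm (L : Lf N a D b) {c : ℕ} (hc : Sm (N * D) c) (pl : Pl) : b.ε (pl.σ c) = 1 := by
  have e : c ≡ 1 [MOD D] := hc.2.2.of_mul_left _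
  refine L.cd _ fun z hz => (Dr.root_cong (pl.ov c hc.1) (fun d => hc.1.one_lt.ne' ?_)
    (pl.fb c hc.1) hz).trans ?_
  · exact Nat.dvd_one.1 ((e.of_dvd d).dvd_iff dvd_rfl |>.1 dvd_rfl)
  · rw [pow_eq_pow_of_modEq e hz, pow_one]

variable (t : Tw b) (j : ℕ)

theorem cd_psi {M : ℕ} (e : Cd M b.ε) (d : t.c j ∣ M) : Cd M (t.Ψ j) := fun g h => by
  rw [t.hΨ, e g h, (t.tq j).ker g (Hm_le d h), map_one, ZMod.val_zero, pow_zero, mul_one]

theorem psi_pow (g : GQ) : t.Ψ j g ^ 2 ^ (2 * j + 4) = 1 := by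
  rw [t.hΨ, mul_pow, ← pow_mul, mul_comm (t.e j g).val, pow_mul, ← map_pow (mj _),
    P004F.Pa.mj_pow (P004F.Pat.X_Im 1 |> fun h => by simpa using h) (pow_dvd_pow 2 (by omega)), one_pow,
    mul_one, ← map_pow, pow_succ', pow_mul, b.sq, one_pow, map_one]

theorem io_det (g : GQ) : t.ι j (b.ρ (t.N j) g - 1).det = cj (j + 1) (dl b g) := by
  rw [← Pp.io_eq (t.ι j), dl, RingHom.map_det (toZModPow _), map_sub, map_one]
  rfl

theorem a_cj : ∃ v, 1 + t.a j b.c = vecMulVec (cj (j + 1) ∘ b.gp) v := by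
  obtain ⟨w, e⟩ := b.cj
  refine ⟨cj _ ∘ w, ?_⟩
  rw [t.a_eq, t.hΨ, b.εc, (t.tq j).cj _ b.cc, ZMod.val_zero, pow_zero, map_one, one_mul, one_smul]
  ext i k
  simpa [vecMulVec_apply, one_apply, apply_ite (cj (j + 1))] using
    congrArg (fun A => cj (j + 1) (A i k)) e

theorem prod_T : ∏ l ∈ t.T j, l = t.c j * t.q j :=
  Nat.prod_primeFactors_of_squarefree ((Nat.squarefree_mul ((Nat.Prime.coprime_iff_not_dvd
    (t.pq j).1).2 (t.pq j).2.2).symm).2 ⟨(t.tq j).sq, (t.pq j).1.squarefree⟩)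

variable {t} {c : ℕ}

theorem mem_T (X : Tx t c) {l : ℕ} (m : l ∈ t.T j) : l.Prime ∧ l ∉ insert c b.S := by
  have p := Nat.prime_of_mem_primeFactors m
  refine ⟨p, ((Pp.G0.mem_T p).1 m).elim (fun d => ((X.tq j).cy l p d).2) fun d => ?_⟩
  rw [(Nat.prime_dvd_prime_iff_eq p (t.pq j).1).1 d, Finset.mem_insert, not_or]
  exact ⟨X.ne j, (t.pq j).2.1⟩

theorem ev_psi {n : ℕ} {p : Rj (j + 1) →+* Zn n} (h : Ev p) : p.toMonoidHom.comp (t.Ψ j) = en b n :=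
  MonoidHom.ext fun g => by
    show p (t.Ψ j g) = toZModPow n (b.ε g)
    rw [t.hΨ, map_mul, map_pow, h, show p (cj _ _) = _ from h (C _)]
    simp

/-- from the relation between the classes to the end of row `RLC` -/
theorem rlc_end (x : t.Es) {y : GQ → Fin 2 → Rj (j + 1)} {k : ℤ_[2]} {s E : Rj (j + 1)}
    (h : Ch ⊤ (t.a j) (cj (j + 1) k • y) ((s * E) • x.cl j)) :
    ∃ x₂ ∈ Zq (Rj (j + 1)) (b.S ∪ t.T j) (t.a j) b.c, Ch ⊤ (t.a j) x₂ (2 • x.cl j) ∧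
      ∀ x₁ ∈ Zq (Rj (j + 1)) (b.S ∪ t.T j) (t.a j) b.c, Ch ⊤ (t.a j) x₁ y →
        ∃ l : Rj (j + 1), cj (j + 1) (4 * k) • x₁ =
          (2 * s * E) • x₂ + l • db (t.a j) (cj _ ∘ b.gp) := by
  obtain ⟨r, Q, u, P, -⟩ := Pp.Tw.pn0 x j
  obtain ⟨V, z⟩ := P.pz x
  have m : (fun g => u g *ᵥ Vᵀ 1) ∈ Zq (Rj (j + 1)) (b.S ∪ t.T j) (t.a j) b.c :=
    (P _).mapsTo (funext fun i => congrFun (congrFun z.ker i) 1)
  refine ⟨_, m, z.cl, fun x₁ m₁ e => ?_⟩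
  obtain ⟨v, hv⟩ := a_cj t j
  have e1 := ch_trans (ch_smul 2 (ch_trans (ch_smul _ e) h)) (by
    rw [smul_comm, ← Nat.cast_ofNat (R := Rj (j + 1)), Nat.cast_smul_eq_nsmul]
    exact ch_smul _ (ch_symm z.cl))
  refine (fd hv e1 (by simp [m₁.2.2.2]) (by simp [show u b.c *ᵥ Vᵀ 1 = 0 from m.2.2.2])).imp
    fun l k => ?_
  rw [smul_smul, smul_smul, smul_smul, ← mul_assoc] at k
  rw [← k, map_mul, map_ofNat]
  norm_num

end Vale.Agent.P014T.Ct.B0
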