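import Vale.Agent.P014T.Ct.St
import Vale.Agent.P014T.Pp.Twx
import Vale.Agent.P014T.Ba.La

/-! # P014T, block C-TOP: small lemmas for the glue -/

set_option autoImplicit false
set_option linter.all false

open NumberField Matrix Filter PowerSeries Set
open scoped Classical

noncomputable section

namespace Vale.Agent.P014T.Ct.G0

open Vale.Agent.P022 (Qb GQ)
open Vale.Agent.P004F (La Rj cj mj M2)
open Vale.Agent.P004F.Pat (U Sy Im mem_Im)
open PadicInt (toZModPow toZMod)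
open Dr (Hm Zn Cd)
open Pp (Bs Tw)
open Top (Pm)
open Ba (rd)

variable {b b' : Bs} {c j n : ℕ}

/-! ## the same tower for another twist -/

/-- the tower for another twist -/
def re (t : Tw b) (x : Tx t c) (hr : b'.r = b.r) (hS : b'.S = b.S) (hp : b'.pl = b.pl) : Tw b' where
  m := t.m
  c := t.c
  q := t.q
  e := t.e
  e' := t.e'
  N := t.N
  ι := t.ι
  Ψ j := (cj _).toMonoidHom.comp b'.ε * Pp.Rg.ch (x := mj _ (1 + X))
    (by rw [map_add, map_one]; exact Pp.Rg.X_ord (by omega))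
    (by simpa using (t.tq j).add 1 1) (t.tq j).add
  le := t.le
  tq := hS ▸ t.tq
  crd := t.crd
  gq j l m := by
    rw [hr, hp]
    exact x.gq j l (Nat.primeFactors_mono (dvd_mul_right _ _)
      (mul_ne_zero (t.tq j).sq.ne_zero (t.pq j).1.ne_zero) m) _ (b'.sq _)
  tq' := t.tq'
  pq := hS ▸ t.pq
  spl := by rw [hr, hp]; exact t.spl
  hΨ _ _ := rfl

theorem re_tx (t : Tw b) (x : Tx t c) (hr : b'.r = b.r) (hS : b'.S = b.S) (hp : b'.pl = b.pl) :
    Tx (re t x hr hS hp) c :=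
  ⟨hS ▸ x.tq, x.ne, x.crd, by rw [hr, hp]; exact x.gq⟩

theorem re_T (t : Tw b) (x : Tx t c) (hr : b'.r = b.r) (hS : b'.S = b.S) (hp : b'.pl = b.pl)
    (j : ℕ) : (re t x hr hS hp).T j = t.T j := rfl

theorem eps_dvd (b b' : Bs) (g : GQ) : 2 ∣ b.ε g - b'.ε g := by
  rcases b.eps g with e | e <;> rcases b'.eps g with e' | e' <;> rw [e, e']
  exacts [⟨0, by ring⟩, ⟨1, by ring⟩, ⟨-1, by ring⟩, ⟨0, by ring⟩]

theorem psi_dvd (t : Tw b) (t' : Tw b') (he : t'.e = t.e) (j : ℕ) (g : GQ) :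
    2 ∣ t.Ψ j g - t'.Ψ j g := by
  rw [t.hΨ, t'.hΨ, he, ← sub_mul, ← map_sub]
  exact Dvd.dvd.mul_right (map_ofNat (cj (j + 1)) 2 ▸ map_dvd _ (eps_dvd b b' g)) _

theorem a_dvd (t : Tw b) (t' : Tw b') (hr : b'.r = b.r) (he : t'.e = t.e) (j : ℕ) (g : GQ)
    (i k : Fin 2) : 2 ∣ t.a j g i k - t'.a j g i k := by
  rw [t.a_eq, t'.a_eq, hr, Matrix.smul_apply, Matrix.smul_apply, smul_eq_mul, smul_eq_mul,
    ← sub_mul]
  exact (psi_dvd t t' he j g).mul_right _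

theorem psi_pow (t : Tw b) (j : ℕ) (g : GQ) : t.Ψ j g ^ 2 ^ (2 * j + 1) = 1 := by
  rw [t.hΨ, mul_pow, ← map_pow, pow_succ', pow_mul, b.sq, one_pow, map_one, one_mul, ← pow_succ',
    pow_right_comm, map_add, map_one, Pp.Rg.X_ord le_rfl, one_pow]

theorem rho_eq (hr : b'.r = b.r) (n : ℕ) : b'.ρ n = b.ρ n := by rw [Bs.ρ, Bs.ρ, hr]

/-! ## limits -/

theorem ur_cj (y : ℤ_[2]) : Sy.succ.ur (fun j => cj (j + 1) y) = C y := Sy.succ.ur_const _

theorem ej_lim (t : Tw b) : Sy.succ.ur (fun j => Ej t j) = t.E := by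
  rw [Tw.E, show (fun j => Ej t j) = ∏ p ∈ b.σ, (b.E p).eval₂ (RingHom.pi fun j => cj (j + 1))
    fun j => mj (j + 1) (1 + X) ^ (t.e j (b.pl.σ p)).val from funext fun j => by
      rw [Finset.prod_apply]
      exact Finset.prod_congr rfl fun p _ =>
        (Polynomial.hom_eval₂ (b.E p) (RingHom.pi fun j => cj (j + 1))
          (Pi.evalRingHom (fun j => Rj (j + 1)) j)
          fun j => mj (j + 1) (1 + X) ^ (t.e j (b.pl.σ p)).val).symm, map_prod]
  refine Finset.prod_congr rfl fun p _ => ?_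
  rw [Polynomial.hom_eval₂]
  exact congrArg (Polynomial.eval₂ · _ _) (RingHom.ext ur_cj)

theorem ex_ev (h : n ≤ j) : ∃ p : Rj j →+* Zn n, Ev p := by
  refine ⟨Ideal.Quotient.lift _ ((toZModPow n).comp constantCoeff) fun y m => ?_, fun _ => rfl⟩
  rcases Nat.eq_zero_or_pos n with rfl | n0
  · exact Subsingleton.elim (α := ZMod 1) _ _
  · rw [RingHom.comp_apply, ← RingHom.mem_ker, PadicInt.ker_toZModPow, Ideal.mem_span_singleton,
      ← coeff_zero_eq_constantCoeff_apply]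
    exact_mod_cast (pow_dvd_pow _ h).trans (mem_Im.1 m 0 (n0.trans_le h))

theorem Ev.cj {p : Rj j →+* Zn n} (h : Ev p) (y : ℤ_[2]) : p (cj j y) = toZModPow n y :=
  (h _).trans (by rw [constantCoeff_C])

theorem ev_ur (n : ℕ) (x : ∀ j, Rj (j + 1)) : ∀ᶠ j in U, ∀ p : Rj (j + 1) →+* Zn n, Ev p →
    p (x j) = toZModPow n (constantCoeff (Sy.succ.ur x)) :=
  (Sy.succ.ur_spec x (n + 1)).mono fun j e p h => by
    obtain ⟨y, hy⟩ := Ideal.Quotient.mk_surjective (x j)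
    rw [← hy, h, ← sub_eq_zero, ← map_sub, ← map_sub, ← RingHom.mem_ker, PadicInt.ker_toZModPow,
      Ideal.mem_span_singleton, ← coeff_zero_eq_constantCoeff_apply]
    exact_mod_cast (pow_dvd_pow _ n.le_succ).trans (mem_Im.1 (e y hy) 0 n.succ_pos)

theorem ev_vec {ι : Type} [Finite ι] (n : ℕ) (x : ∀ j, ι → Rj (j + 1)) :
    ∀ᶠ j in U, ∀ p : Rj (j + 1) →+* Zn n, Ev p →
      p ∘ x j = toZModPow n ∘ fun i => constantCoeff (Sy.succ.ur fun j => x j i) :=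
  (eventually_all.2 fun i => ev_ur n fun j => x j i).mono fun _ e p h => funext fun i => e i p h

theorem ev_um {ι κ : Type} [Finite ι] [Finite κ] (n : ℕ) (Q : ∀ j, Matrix ι κ (Rj (j + 1))) :
    ∀ᶠ j in U, ∀ p : Rj (j + 1) →+* Zn n, Ev p →
      (Q j).map p = ((Sy.succ.um Q).map constantCoeff).map (toZModPow n) :=
  (eventually_all.2 fun i => eventually_all.2 fun k => ev_ur n fun j => Q j i k).mono
    fun _ e p h => Matrix.ext fun i k => e i k p h

/-- congruences modulo two pass to the limit -/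
theorem rd_ur {x y : ∀ j, Rj (j + 1)} (h : ∀ᶠ j in U, 2 ∣ x j - y j) :
    rd (Sy.succ.ur x) = rd (Sy.succ.ur y) := by
  rw [← sub_eq_zero, ← map_sub, ← map_sub, Ba.rd_zero, ← Ideal.mem_span_singleton]
  refine Sy.succ.ur_mem _ (h.mono fun j e => ?_)
  rw [Ideal.map_span, Set.image_singleton, map_ofNat, Ideal.mem_span_singleton]
  exact e

theorem co_two (k : ℕ) : coeff 2 ((1 + X : La) ^ k) = (k.choose 2 : ℤ_[2]) := by
  rw [← Polynomial.coeff_one_add_X_pow, ← Polynomial.coeff_coe]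
  simp

theorem rd_ne (t : Tw b) {g : GQ} (h : ∀ j, (t.e j g).val % 4 = 2) :
    rd (Sy.succ.ur fun j => t.Ψ j g) ≠ 1 := fun e => by
  obtain ⟨j, k⟩ := (Sy.succ.ur_spec (fun j => t.Ψ j g) 3).exists
  have k := mem_Im.1 (k (C (b.ε g) * (1 + X) ^ (t.e j g).val)
    (by rw [t.hΨ, map_mul, map_pow]; rfl)) 2 (by norm_num)
  have e := congrArg (coeff 2) e
  rw [coeff_map, coeff_one, if_neg two_ne_zero] at e
  obtain ⟨y, k⟩ := k
  have k := congrArg toZMod k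
  obtain ⟨i, hi⟩ : ∃ i, (t.e j g).val = 4 * i + 2 := ⟨(t.e j g).val / 4, by have := h j; omega⟩
  rw [map_sub, coeff_C_mul, co_two, map_sub, e, map_mul, b.eps_two, map_natCast, hi,
    Nat.choose_two_right, show (4 * i + 2) * (4 * i + 2 - 1) = 2 * (2 * (4 * i * i + 3 * i) + 1) from
      (by rw [show 4 * i + 2 - 1 = 4 * i + 1 from rfl]; ring), Nat.mul_div_cancel_left _ two_pos,
    map_mul, map_pow, map_ofNat] at k
  push_cast at k
  rw [show (2 : ZMod 2) = 0 from rfl] at k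
  simp at k

theorem sm_ur (t : Tw b) (φ : GQ) (c : ℕ) : Sy.succ.ur (fun j => sm (t.Ψ j) φ c) =
    (c ^ 2 - c * Sy.succ.ur fun j => t.Ψ j φ⁻¹) ^ 2 := by
  rw [← map_natCast Sy.succ.ur, ← map_pow, ← map_mul, ← map_sub, ← map_pow]
  rfl

/-- the smoothing factor has no `μ`-invariant -/
theorem sm_rd {t : Tw b} (x : Tx t c) (hc : c.Prime) (o : Odd c) :
    rd (Sy.succ.ur fun j => sm (t.Ψ j) (b.pl.σ c) c) ≠ 0 := by
  have c1 : (c : (ZMod 2)⟦X⟧) = 1 := by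
    rw [← map_natCast (C (R := ZMod 2)), (ZMod.natCast_eq_one_iff_odd).2 o, map_one]
  rw [sm_ur, map_pow, map_sub, map_pow, map_mul, map_natCast, c1, one_pow, one_mul]
  refine pow_ne_zero _ (sub_ne_zero.2 fun e => rd_ne t (fun j => (x.tq j).fro c
    (Finset.mem_insert_self _ _) _ _ (b.pl.ov c hc) (b.pl.fb c hc)) ?_)
  rw [← one_mul (rd _), e, ← map_mul, ← map_mul, ← e, ← map_one rd, ← map_one Sy.succ.ur]
  exact congrArg _ (congrArg _ (funext fun j => by simp [← map_mul]))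

theorem sm_zero (t : Tw b) {φ : GQ} (h : b.ε φ = 1) (c : ℕ) :
    constantCoeff (Sy.succ.ur fun j => sm (t.Ψ j) φ c) = s0 c := by
  have e : b.ε φ⁻¹ = 1 := by rw [← mul_one (b.ε _), ← h, ← map_mul, inv_mul_cancel, map_one, h]
  have : constantCoeff (Sy.succ.ur fun j => t.Ψ j φ⁻¹) = 1 := by
    rw [← PadicInt.ext_of_toZModPow]
    intro n
    obtain ⟨j, k, l⟩ := ((ev_ur n fun j => t.Ψ j φ⁻¹).and (P004F.Pat.U_ge n)).exists
    obtain ⟨p, hp⟩ := ex_ev (l.trans j.le_succ)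
    rw [← k p hp, t.hΨ, e, map_one, one_mul, map_pow, hp]
    simp
  rw [sm_ur, map_pow, map_sub, map_pow, map_mul, map_natCast, this, mul_one, s0]

theorem sm_rd_eq (t : Tw b) (t' : Tw b') (he : t'.e = t.e) (φ : GQ) (c : ℕ) :
    rd (Sy.succ.ur fun j => sm (t.Ψ j) φ c) = rd (Sy.succ.ur fun j => sm (t'.Ψ j) φ c) := by
  simp only [sm_ur, map_pow, map_sub, map_mul,
    rd_ur (.of_forall fun j => psi_dvd t t' he j φ⁻¹)]

/-! ## choices -/

theorem ex_sm {N : ℕ} (h : N ≠ 0) (F : Finset ℕ) : ∃ c, Sm N c ∧ c ∉ F := by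
  obtain ⟨c, h1, h2, h3⟩ := Nat.exists_prime_gt_modEq_one (max 3 (F.sup id)) h
  exact ⟨c, ⟨h1, (le_max_left _ _).trans_lt h2, h3⟩, fun m =>
    ((Finset.le_sup (f := id) m).trans (le_max_right 3 _)).not_gt h2⟩

theorem Sm.odd {N : ℕ} (h : Sm N c) : Odd c := h.1.odd_of_ne_two (by have := h.2.1; omega)

theorem Sm.of {N N' : ℕ} (h : Sm N c) (d : N' ∣ N) : Sm N' c := ⟨h.1, h.2.1, h.2.2.of_dvd d⟩

theorem s0_ne {N : ℕ} (h : Sm N c) : s0 c ≠ 0 := by
  refine pow_ne_zero _ (sub_ne_zero.2 fun e => ?_)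
  have e : c ^ 2 = c := by exact_mod_cast e
  have := h.2.1
  nlinarith

theorem ex_lv {N : ℕ} {S : Finset ℕ} (h : N ≠ 0) (pS : Pm S) (two : 2 ∈ S)
    (bd : ∀ p : ℕ, p.Prime → p ∣ N → p ∈ S) (n : ℕ) : ∃ M, Lv n N S M := by
  have sq : Squarefree (∏ p ∈ S, p) := Finset.squarefree_prod_of_pairwise_isCoprime
    (fun p a q a' e => Nat.coprime_iff_isRelPrime.1 ((Nat.coprime_primes (pS p a) (pS q a')).2 e))
    fun p a => (pS p a).squarefree
  have l0 := Nat.lcm_ne_zero h sq.ne_zero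
  refine ⟨2 ^ (n + 2) * N.lcm (∏ p ∈ S, p), mul_ne_zero (by positivity) l0, Finset.ext fun p => ?_,
    dvd_mul_right _ _, (Nat.dvd_lcm_left _ _).mul_left _, fun p hp p2 d => ?_⟩
  · rw [Nat.mem_primeFactors]
    refine ⟨fun ⟨hp, d, _⟩ => ?_, fun m => ⟨pS p m, ((Finset.dvd_prod_of_mem _ m).trans
      (Nat.dvd_lcm_right _ _)).mul_left _, mul_ne_zero (by positivity) l0⟩⟩
    rcases hp.dvd_mul.1 d with d | d
    · exact (Nat.prime_dvd_prime_iff_eq hp Nat.prime_two).1 (hp.dvd_of_dvd_pow d) ▸ two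
    rcases hp.dvd_lcm.1 d with d | d
    · exact bd p hp d
    · exact Nat.primeFactors_prod pS ▸ Nat.mem_primeFactors.2 ⟨hp, d, sq.ne_zero⟩
  · have d := (Nat.Coprime.pow 2 (n + 2)
      ((Nat.coprime_primes hp Nat.prime_two).2 p2)).dvd_of_dvd_mul_left d
    rw [hp.pow_dvd_iff_le_factorization l0, Nat.factorization_lcm h sq.ne_zero, Finsupp.sup_apply,
      le_sup_iff] at d
    refine (hp.pow_dvd_iff_le_factorization h).2 (d.resolve_right fun k => ?_)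
    exact (k.trans (sq.natFactorization_le_one p)).not_gt one_lt_two

theorem rho_det (b : Bs) (n : ℕ) (g : GQ) : (b.ρ n g - 1).det = toZModPow n (dl b g) := by
  rw [dl, RingHom.map_det, map_sub, map_one]
  rfl

/-- the reduction kills the annihilator -/
theorem ann {δ : ℤ_[2]} (h : δ ≠ 0) : ∃ v : ℕ, ∀ (n k : ℕ) (R : Type) [CommRing R] (ι : Zn n →+* R),
    k + v ≤ n → (2 : R) ^ k = 0 → ∀ x, toZModPow n δ ^ 2 * x = 0 → ι x = 0 := by
  obtain ⟨v, y, e⟩ : ∃ v : ℕ, δ ^ 2 ∣ 2 ^ v := by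
    refine ⟨(δ ^ 2).valuation, ?_⟩
    have := PadicInt.unitCoeff_spec (pow_ne_zero 2 h)
    exact ⟨↑(PadicInt.unitCoeff (pow_ne_zero 2 h))⁻¹, by
      rw [Units.eq_mul_inv_iff_mul_eq, mul_comm]; exact_mod_cast this.symm⟩
  refine ⟨v, fun n k R _ ι le k0 x hx => ?_⟩
  have : (2 : Zn n) ^ v * x = 0 := by
    rw [← map_ofNat (toZModPow n), ← map_pow, e, map_mul, map_pow, mul_right_comm, hx, zero_mul]
  obtain ⟨x, rfl⟩ := ZMod.natCast_zmod_surjective x
  have d : 2 ^ n ∣ 2 ^ v * x := (ZMod.natCast_eq_zero_iff _ _).1 (by exact_mod_cast this)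
  obtain ⟨z, rfl⟩ := Nat.dvd_of_mul_dvd_mul_left (k := 2 ^ v) (by positivity)
    ((pow_add 2 v k ▸ pow_dvd_pow 2 (add_comm k v ▸ le)).trans d)
  rw [map_natCast, Nat.cast_mul, Nat.cast_pow, Nat.cast_ofNat, k0, zero_mul]

end Vale.Agent.P014T.Ct.G0
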