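import Vale.Agent.P014T.Ct.St2
import Vale.Agent.P014T.Ct.Bas
import Vale.Agent.P014T.Ct.Gl0
import Vale.Agent.P014T.Pp.G2a

/-! # P014T, block C-TOP, row KTW: from the identity in the limit to the zeta elements -/

set_option autoImplicit false
set_option linter.all false

open Matrix PowerSeries
open scoped Classical

noncomputable section

namespace Vale.Agent.P014T.Ct

open Vale.Agent.P022 (GQ)
open Vale.Agent.P004F (Rj cj M2)
open PadicInt (toZModPow)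
open Dr (Zn)
open Pq (Zq)
open Pp (Bs Tw)
open Rc (KZ)
open B0

namespace Kw

theorem ev_a {b : Bs} {t : Tw b} {j n : ℕ} {p : Rj (j + 1) →+* Zn n} (e : Ev p) (g : GQ) :
    (t.a j g).map p = en b n g • b.ρ n g := by
  have z : (2 : Zn n) ^ n = 0 := by exact_mod_cast ZMod.natCast_self (2 ^ n)
  have k := Pp.G2.hom_ext z (p.comp ((t.ι j).comp (toZModPow _))) (toZModPow n)
  show (t.Ψ j g • _ : M2 _).map p = _
  rw [Matrix.map_smul' _ _ _ (map_mul _), ← ev_psi j e]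
  exact congrArg _ (Matrix.ext fun i l => DFunLike.congr_fun k _)

theorem det_sm {R κ : Type} [CommRing R] [Fintype κ] (C : Matrix (Fin 2) κ R) (s : R) (v w : κ → R) :
    (C * Ba.cl v (s • w)).det = s * (C * Ba.cl v w).det := by
  have a := Ba.det_cl C v (s • w)
  have b := Ba.det_cl C v w
  rw [dotProduct_smul, dotProduct_smul, smul_eq_mul, smul_eq_mul] at a
  exact a.trans (((by ring : _ = s * _).trans (congrArg _ b.symm)))

end Kw

open Kw in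
/-- **the zeta elements of one twist** -/
theorem ktw {Kz : KZ} (rr : RR Kz) (frm : FRM) (dsc : DSC) (fin : FIN) : KTW Kz := by
  intro X N G a A B w I x y h γ d A' B' h' b c g₀ t M z α rn gam T mb sc cS hg d0 tx hi lv zy zk
    ⟨r, Q₀, v₀, w₀, k1, k2, hC, o⟩
  obtain ⟨P, ι, lg, ρ, m₀, o1, o2, o3, o4, hr⟩ := rr X N G a A B w I x y h γ d A' B' T h' b c g₀ rn
    gam mb sc cS hg
  refine ⟨b.c, P, ι, lg, _, ρ, max m₀ t.m, b.cc, o1, o2, o3, mul_ne_zero (mul_ne_zero two_ne_zero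
    (pow_ne_zero 2 d0)) (G0.s0_ne sc), o4, fun n => ?_⟩
  obtain ⟨j, p, Q, u, v, w', x₁, le, ev, a1, a2, a3, a5, rQ, rv, rw'⟩ := o n
  have tN := t.le j
  have a4 : x₁ ∈ Zq (Rj (j + 1)) (b.S ∪ t.T j) (t.a j) b.c :=
    (funext a3.2 : (fun g => u g *ᵥ w') = x₁) ▸ (a1 _).mapsTo a3.1
  have e2 : ∀ g, en b n g ^ 2 ^ 1 = 1 := fun g =>
    (map_pow (toZModPow n) _ _).symm.trans ((congrArg _ (b.sq g)).trans (map_one _))
  obtain ⟨z', hz, -, -, ch, -⟩ := frm _ _ _ a _ _ (gr_un mb.lf (t.N j) (sm_mono sc))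
    (raw_un (zy j) (sm_mono sc)) g₀ hg (M j) (Zn n) (p.comp (t.ι j)) (en b n) (en b n) b.S b.c 1
    (lv_aq (lv j) sc.1 cS) (Dvd.dvd.trans ⟨2 ^ t.N j, by ring⟩ (lv j).two) (lv j).pf.le
    (lv_en mb.lf (lv j) n) (lv_en mb.lf (lv j) n) (fun g => ⟨e2 g, e2 g, by simp⟩)
    (fun v e => (congrArg p (hi j v e)).trans (map_zero p)) b.cc
    fun l P o s => ug_of mb.lf _ o fun m => (s m).elim
  have xz : Xz b g₀ (p.comp (t.ι j)) (M j) (z j ∅ c (M j)) (toZModPow n (dl b g₀ ^ 2) • z') :=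
    ⟨zq_smul _ hz, ch_smul _ ch⟩
  obtain ⟨r1, r2, r3, r4⟩ := hr (max m₀ t.m) n _ _ _ _ _ (le_max_left _ _) (by omega) (by omega)
    (lv j) (zy j) (zk j) xz
  obtain ⟨b1, b2⟩ := dsc A B h.disc N a d A' B' b t c g₀ T mb sc cS tx hg j
  obtain ⟨k, l, ok, e⟩ := b2 _ _ n p _ (lv j) (zy j) ev xz _ a4 a5
  have mc := fin A B h.disc N a d A' B' T b _ _ (t.a j) r n Q u v
    (cj (j + 1) (2 * dl b g₀ ^ 2) • w') (cj _ ∘ b.gp) (cj (j + 1) (2 * dl b g₀ ^ 2) • x₁) p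
    Q₀ v₀ ((2 * dl b g₀ ^ 2) • w₀) (2 * dl b g₀ ^ 2 * s0 c * α) k l mb a1 a2
    ⟨by rw [mulVec_smul, a3.1, smul_zero], fun g => by rw [mulVec_smul, a3.2]; rfl⟩ (ev_a ev)
    (funext fun i => G0.Ev.cj ev _) rQ rv
    (funext fun i => (map_mul p _ _).trans ((congrArg₂ _ (G0.Ev.cj ev _) (congrFun rw' i)).trans
      (map_mul (toZModPow n) _ _).symm))
    k1 (by rw [mulVec_smul, k2, smul_zero]) (fun C => by rw [det_sm, hC]; ring) ok
  refine ⟨_, r1, r2, r3, r4, t.T j, (tx.crd j).trans (le_max_right _ _), fun q m => ⟨(b1 q m).1,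
    (b1 q m).2.1, fun e => (b1 q m).2.2 ((pow_dvd_pow _ (le_max_right _ _)).trans e)⟩,
    fun g hg' s i h1 h2 h3 => ?_⟩
  rw [← map_zsmul, e] at h3 ⊢
  obtain ⟨m1, m2⟩ := mc g hg' s i (by omega) (by omega) h3
  exact ⟨m1.trans (Nat.mul_le_mul_left _ (Nat.pow_le_pow_right two_pos (by omega))), m2⟩

end Vale.Agent.P014T.Ct
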