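import Vale.Agent.P014T.Ct.St2
import Vale.Agent.P014T.Ct.Gl0
import Vale.Agent.P014T.Ct.Dsc
import Vale.Agent.P014T.Ba.Lrl

/-! # P014T, block C-TOP: the Iwasawa side -/

set_option autoImplicit false
set_option linter.all false

open Matrix Filter PowerSeries Set

noncomputable section

namespace Vale.Agent.P014T.Ct

open Vale.Agent.P022 (GQ)
open Vale.Agent.P004F (La Rj cj)
open Vale.Agent.P004F.Pat (U Sy U_bdd U_ch U_ge)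
open Dr (Ha Hm Ch Cd Hm_le)
open Pq (Zq)
open Pp (Bs Tw PATQ Pz)
open Ba (rd st cl)

namespace Lm

variable {b b' : Bs} {N D c r : ℕ} {a : ℕ → ℤ} {g₀ : GQ} {t : Tw b} {M : ℕ → ℕ}
  {y : ∀ j, Fy (t.N j)} {Q : ∀ j, Matrix (Fin r) (Fin (r + 2)) (Rj (j + 1))}
  {u : ∀ j, GQ → Matrix (Fin 2) (Fin (r + 2)) (Rj (j + 1))} {v w : ∀ j, Fin (r + 2) → Rj (j + 1)}

variable (t c M y) in
/-- the data at one level -/
def Dt (j : ℕ) (Q : Matrix (Fin r) (Fin (r + 2)) (Rj (j + 1)))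
    (u : GQ → Matrix (Fin 2) (Fin (r + 2)) (Rj (j + 1))) (v w : Fin (r + 2) → Rj (j + 1)) : Prop :=
  Pr (t.a j) (b.S ∪ t.T j) b.c Q u ∧ Cl Q u v (db (t.a j) (cj _ ∘ b.gp)) ∧
    ∃ x, Cl Q u w x ∧ Ch ⊤ (t.a j) x (cu t j c (M j) (y j))

theorem eps_c (L : Lf N a D b) (s : Sm (N * D) c) (c0 : c ∉ b.S) : b.ε (b.pl.σ c) = 1 :=
  L.cd _ fun z hz => by
    rw [Dr.root_cong (b.pl.ov c s.1) (fun d => c0 (L.bad c s.1 (d.mul_left _))) (b.pl.fb c s.1) hz,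
      pow_eq_pow_of_modEq (s.2.2.of_mul_left _) hz, pow_one]

theorem cd_t (L : Lf N a D b) {n m : ℕ} (l : Lv n N b.S m) (t : Tw b) (j : ℕ) :
    Cd (m * (t.c j * t.q j)) (t.Ψ j) := fun g k => by
  rw [t.hΨ, L.cd g (Hm_le ((Ds.lv_dvd L l).mul_right _) k),
    (t.tq j).ker g (Hm_le ((dvd_mul_right _ _).mul_left _) k), map_one, ZMod.val_zero, pow_zero, mul_one]

theorem lim0 (h : ∀ᶠ j in U, Q j *ᵥ v j = 0) : Sy.succ.um Q *ᵥ Sy.succ.uv v = 0 :=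
  (Sy.uv_mv ..).symm.trans ((Sy.succ.uv_ae h).trans Sy.succ.uv_zero)

/-- one twist -/
theorem one (hP : PATQ) (h3 : RLC) (L : Lf N a D b) (s : Sm (N * D) c) (c0 : c ∉ b.S) (x : Tx t c)
    (g0 : g₀ ∈ Ha) (d0 : dl b g₀ ≠ 0) (lv : ∀ j, Lv (t.N j) N b.S (M j))
    (zy : ∀ j, Zy (b.ρ (t.N j)) N a (y j)) (h : ∀ᶠ j in U, Dt c t M y j (Q j) (u j) (v j) (w j))
    {C₀ : Matrix (Fin 2) (Fin (r + 2)) La} (h0 : rd (st finSumFinEquiv.symm (Sy.succ.um Q) C₀).det ≠ 0) :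
    ∃ α, (C₀ * cl (Sy.succ.uv v) (Sy.succ.uv w)).det =
      Sy.succ.ur (fun j => sm (t.Ψ j) (b.pl.σ c) c) * α * (st finSumFinEquiv.symm (Sy.succ.um Q) C₀).det ∧
      Co1 t c M y (constantCoeff α) := by
  obtain ⟨z, k, k0, hz⟩ := h3 b N a D t c g₀ M y L s c0 x g0 lv zy
  obtain ⟨w', h1⟩ := U_ch (P := fun j (w' : Fin (r + 2) → Rj (j + 1)) =>
      Pz z j (Q j) (u j) (cl (v j) w') ∧ ∃ l : Rj (j + 1), cj (j + 1) (4 * k * dl b g₀ ^ 2 * s0 c) • w j =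
        (2 * sm (t.Ψ j) (b.pl.σ c) c * Ej t j) • w' + l • v j) (h.mono fun j ⟨p, hv, x₁, hw, k1⟩ => by
    obtain ⟨x₂, m, k2, k3⟩ := hz j
    obtain ⟨w', w1, w2⟩ := (p _).surjOn m
    obtain rfl := funext hw.2
    obtain ⟨l, e⟩ := k3 _ ((p _).mapsTo hw.1) k1
    subst w2
    exact ⟨w', ⟨p, Ba.mul_cl hv.1 w1, hv.2, k2⟩, l, Pp.Lr.col (p _) hv.1 hw.1 w1 fun g =>
      (congrFun e g).trans (by rw [hv.2]; rfl)⟩)
  obtain ⟨γ, e1⟩ := hP b t z r Q u _ (h1.mono fun j a => a.1) C₀ h0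
  have e2 := Pp.Lr.lim_det Sy.succ (h1.mono fun j a => a.2) C₀
  rw [Pp.Lr.um_cl] at e1
  rw [G0.ur_cj, show Sy.succ.ur (fun j => 2 * sm (t.Ψ j) (b.pl.σ c) c * Ej t j) =
    2 * Sy.succ.ur (fun j => sm (t.Ψ j) (b.pl.σ c) c) * t.E by
      rw [← G0.ej_lim, ← map_ofNat Sy.succ.ur 2, ← map_mul, ← map_mul]; rfl, mul_assoc _ t.E, e1] at e2
  have hs := G0.sm_rd x s.1 (G0.Sm.odd s)
  have s1 := G0.sm_zero t (eps_c L s c0) c
  generalize Sy.succ.ur (fun j => sm (t.Ψ j) (b.pl.σ c) c) = σ at *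
  have τ0 : 4 * k * dl b g₀ ^ 2 * s0 c ≠ 0 := mul_ne_zero (mul_ne_zero (mul_ne_zero (by norm_num)
    (Int.cast_ne_zero.2 k0)) (pow_ne_zero _ d0)) (G0.s0_ne s)
  generalize 4 * k * dl b g₀ ^ 2 * s0 c = τ at *
  obtain ⟨α, e3⟩ : C τ ∣ 2 * γ := Ba.un_dvd (e := τ.valuation) (by
      rw [P004F.Pat.two_C]
      exact map_dvd C ⟨↑(PadicInt.unitCoeff τ0)⁻¹, (Units.eq_mul_inv_iff_mul_eq _).2
        ((mul_comm _ _).trans (PadicInt.unitCoeff_spec τ0).symm)⟩)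
    (by rw [map_mul]; exact mul_ne_zero hs h0) ⟨_, Eq.trans (by ring) e2.symm⟩
  have e4 : (C₀ * cl (Sy.succ.uv v) (Sy.succ.uv w)).det =
      σ * α * (st finSumFinEquiv.symm (Sy.succ.um Q) C₀).det :=
    mul_left_cancel₀ (fun e => τ0 (C_injective (e.trans C.map_zero.symm))) (by
      rw [e2]; linear_combination σ * (st finSumFinEquiv.symm (Sy.succ.um Q) C₀).det * e3)
  have q1 := lim0 (h.mono fun j a => a.2.1.1)
  have q2 := lim0 (h.mono fun j a => a.2.2.elim fun _ a => a.1.1)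
  have q (z) (e : Sy.succ.um Q *ᵥ z = 0) : (Sy.succ.um Q).map constantCoeff *ᵥ (constantCoeff ∘ z) = 0 :=
    funext fun i => (RingHom.map_mulVec ..).symm.trans (by rw [e]; exact map_zero _)
  refine ⟨α, e4, r, _, _, _, q _ q1, q _ q2, fun C₁ => ?_, fun n => ?_⟩
  · have := congrArg constantCoeff (Ba.all_C _ _ (Ba.mul_cl q1 q2) (Ba.ne_of_rd h0) e4 (C₁.map C))
    have e : (C₁.map C).map (constantCoeff (R := ℤ_[2])) = C₁ := Matrix.ext fun _ _ => constantCoeff_C _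
    simp only [map_mul, s1, RingHom.map_det, RingHom.mapMatrix_apply, Matrix.map_mul, Ba.st_map, e] at this
    exact Eq.trans (congrArg (fun A => (C₁ * A).det) (Matrix.ext fun i k => by fin_cases k <;> rfl)) this
  · obtain ⟨j, ⟨⟨⟨⟨p1, p2, x₁, p3, p4⟩, a1⟩, a2⟩, a3⟩, a4⟩ := ((((h.and (G0.ev_um n Q)).and
      (G0.ev_vec n v)).and (G0.ev_vec n w)).and (U_ge n)).exists
    obtain ⟨p, hp⟩ := G0.ex_ev (a4.trans j.le_succ)
    exact ⟨j, p, _, _, _, _, x₁, a4.trans j.le_succ, hp, p1, p2, p3, p4, a1 p hp, a2 p hp, a3 p hp⟩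

end Lm

open Lm

/-- **the Iwasawa side for two twists** -/
theorem core (hP : PATQ) (h1 : PRS) (h2 : FRM) (h3 : RLC) {b b' : Bs} {N D D' c : ℕ} {a : ℕ → ℤ}
    {g₀ : GQ} (t : Tw b) (x : Tx t c) (hr : b'.r = b.r) (hS : b'.S = b.S) (hp : b'.pl = b.pl)
    (hc : b'.c = b.c) (hg : b'.gp = b.gp) (L : Lf N a D b) (L' : Lf N a D' b') (s : Sm (N * D) c)
    (s' : Sm (N * D') c) (c0 : c ∉ b.S) (g0 : g₀ ∈ Ha) (d0 : dl b g₀ ≠ 0) (mz : Mz t) (hi : Hi t g₀)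
    {M : ℕ → ℕ} {y : ∀ j, Fy (t.N j)} (lv : ∀ j, Lv (t.N j) N b.S (M j))
    (zy : ∀ j, Zy (b.ρ (t.N j)) N a (y j)) :
    ∃ α α', Co1 t c M y α ∧ Co1 (G0.re t x hr hS hp) c M y α' ∧ (IsUnit α ↔ IsUnit α') := by
  set t' := G0.re t x hr hS hp
  have lv' j : Lv (t'.N j) N b'.S (M j) := hS ▸ lv j
  obtain ⟨r₀, hp⟩ := h1 b b' t t' D D' L.sqf.ne_zero L'.sqf.ne_zero L.cd L'.cd hS hc hg (fun _ => rfl)
    (G0.a_dvd t t' hr rfl)
  choose r r1 h using hp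
  obtain ⟨n, -, hn⟩ := U_bdd r (.of_forall r1)
  have k : ∀ᶠ j in U, ∃ (Q Q' : Matrix (Fin n) (Fin (n + 2)) (Rj (j + 1))), ∃ u u' v w v' w',
      Dt c t M y j Q u v w ∧ Dt c t' M y j Q' u' v' w' ∧ (∀ i k, 2 ∣ Q i k - Q' i k) ∧
      (∀ i, 2 ∣ v i - v' i) ∧ ∀ i, 2 ∣ w i - w' i := hn.mono fun j e => by
    subst e
    obtain ⟨Q, Q', u, u', p, p', q, m, m', k⟩ := h j
    have c1 := (t.tq j).sq.ne_zero
    have c2 := (t.pq j).1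
    obtain ⟨x₁, z, x₁', z', k1, k2, k3⟩ := h2 _ _ _ _ _ _ (Ds.gr L s.1 c0 (t.N j))
      ((zy j).raw ∅ _ c (by simp [Dx]) (G0.Sm.of s (dvd_mul_right _ _)) (Finset.mem_insert_self ..)
        (Finset.empty_subset _)) g₀ g0 (M j * (t.c j * t.q j)) _ (t.ι j) (t.Ψ j) (t'.Ψ j) (b.S ∪ t.T j)
      b.c (2 * j + 1) (Ds.aq.2 ⟨mul_ne_zero (lv j).ne (mul_ne_zero c1 c2.ne_zero),
        (lv j).two.mul_right _, (lv j).dv.mul_right _, (Ds.aq.1 (Ds.lv_aq (lv j) s.1 c0)).2.2.2.mul_left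
          (Nat.Coprime.mul_left ((s.1.coprime_iff_not_dvd.2 fun d =>
            ((x.tq j).cy c s.1 d).2 (Finset.mem_insert_self ..)).symm)
            ((Nat.coprime_primes c2 s.1).2 (x.ne j)))⟩)
      (((pow_dvd_pow 2 (Nat.le_add_left 2 _)).trans (lv j).two).mul_right _)
      (by rw [Nat.primeFactors_mul (lv j).ne (mul_ne_zero c1 c2.ne_zero), (lv j).pf]; rfl)
      (cd_t L (lv j) t j) (cd_t L' (lv' j) t' j)
      (fun g => ⟨G0.psi_pow t j g, G0.psi_pow t' j g, G0.psi_dvd t t' rfl j g⟩) (hi j) b.cc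
      fun l P o e => Pp.Gk.ug b _ l P o fun f => e (Finset.mem_union_left _ f)
    have ea : Dr.aa (b.ρ (t.N j)) (t.ι j) (t'.Ψ j) = t'.a j := by rw [← G0.rho_eq hr]; rfl
    rw [ea] at z' k2
    obtain ⟨w, w', w1, w2, w3⟩ := k _ z _ z' k3
    obtain ⟨v, v', v1, v2, v3⟩ := k _ m _ m' fun g i => by
      simp only [db, mulVec, dotProduct, ← Finset.sum_sub_distrib, ← sub_mul, Matrix.sub_apply,
        sub_sub_sub_cancel_right]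
      exact Finset.dvd_sum fun l _ => (G0.a_dvd t t' hr rfl j g i l).mul_right _
    refine ⟨Q, Q', u, u', v, w, v', w', ⟨p, v1, _, w1, k1⟩, ⟨?_, hg ▸ v2, _, w2, ?_⟩, q, v3, w3⟩
    · rw [hS, hc]; exact p'
    · unfold cu
      rw [G0.rho_eq hr]
      exact k2
  obtain ⟨Q, k⟩ := U_ch k
  obtain ⟨Q', k⟩ := U_ch k
  obtain ⟨u, k⟩ := U_ch k
  obtain ⟨u', k⟩ := U_ch k
  obtain ⟨v, k⟩ := U_ch k
  obtain ⟨w, k⟩ := U_ch k
  obtain ⟨v', k⟩ := U_ch k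
  obtain ⟨w', k⟩ := U_ch k
  obtain ⟨C₀, h0⟩ := mz n Q u (k.mono fun j a => a.1.1)
  have e1 : rd (st finSumFinEquiv.symm (Sy.succ.um Q) C₀).det =
      rd (st finSumFinEquiv.symm (Sy.succ.um Q') C₀).det := by
    simp only [RingHom.map_det, RingHom.mapMatrix_apply, Ba.st_map]
    exact congrArg (fun A => (st _ A _).det)
      (Matrix.ext fun i l => G0.rd_ur (k.mono fun j a => a.2.2.1 i l))
  have e2 : rd (C₀ * cl (Sy.succ.uv v) (Sy.succ.uv w)).det =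
      rd (C₀ * cl (Sy.succ.uv v') (Sy.succ.uv w')).det := by
    simp only [RingHom.map_det, RingHom.mapMatrix_apply, Matrix.map_mul]
    refine congrArg (fun A => (C₀.map rd * A).det) (Matrix.ext fun i l => ?_)
    fin_cases l
    exacts [G0.rd_ur (k.mono fun j a => a.2.2.2.1 i), G0.rd_ur (k.mono fun j a => a.2.2.2.2 i)]
  obtain ⟨α, a1, a2⟩ := one hP h3 L s c0 x g0 d0 lv zy (k.mono fun j a => a.1) h0
  obtain ⟨α', b1, b2⟩ := one hP h3 L' s' (hS ▸ c0) (G0.re_tx ..) g0 (by rwa [dl, hr]) lv'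
    (fun j => G0.rho_eq hr _ ▸ zy j) (k.mono fun j a => a.2.1) (e1 ▸ h0)
  rw [a1, b1, ‹b'.pl = b.pl›] at e2
  exact ⟨_, _, a2, b2, Ba.cong h0 (G0.sm_rd x s.1 (G0.Sm.odd s)) (.of_eq e1)
    (.of_eq (G0.sm_rd_eq t t' rfl _ c)) (.of_eq e2)⟩

end Vale.Agent.P014T.Ct
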