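import Vale.Agent.P014T.Ct.St
import Vale.Agent.P014T.Pp.Bs0
import Vale.Agent.P014T.Te.Eu
import Vale.Agent.P004N.H461.Cf

/-! # P014T, block C-TOP: the row LGB -/

set_option autoImplicit false
set_option linter.all false

open NumberField Matrix Polynomial
open scoped Classical

noncomputable section

namespace Vale.Agent.P014T.Ct

open Vale.Agent.P022 (Qb GQ)
open Vale.Agent.P022.H443 (inP)
open Vale.Agent.P027M.S (Inert)
open Vale.Agent.P022E.GW (Ov Fb Gn)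
open Vale.Agent.P004F (Nt M2 sd hq)
open Vale.Agent.P004S.Aq (cz)
open P004M.TE (mt al)
open Top (El No Gd Mu)
open Pp (Bs)
open Pp.G2 (I2)
open Pp.B0

namespace Lb

variable {r : GQ →* M2 ℤ_[2]} {ε : GQ →* ℤ_[2]} {p : ℕ} {P : Ideal (𝓞 Qb)} {φ τ : GQ} {t : ℤ}

/-- the twisted representation -/
def tr (ε : GQ →* ℤ_[2]) (r : GQ →* M2 ℤ_[2]) : GQ →* M2 ℤ_[2] where
  toFun g := ε g • r g
  map_one' := by simp
  map_mul' g h := by simp [smul_smul, mul_comm]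

theorem cz_fb (o : Ov p P) (h2 : p ≠ 2) (f : Fb p P φ) : (cz φ : ℤ_[2]) = p :=
  Subtype.ext (Iv.cy_fb' o h2 f)

theorem fix (n : ¬ No r p) (o : Ov p P) :
    ∃ v : Fin 2 → ℤ_[2], v ≠ 0 ∧ ∀ g, Inert P g → r g *ᵥ v = v := by
  simp only [No, not_forall] at n
  obtain ⟨Q, o', v, k, v0⟩ := n
  obtain ⟨t, c, -⟩ := P004S.ex_conj o' o
  refine ⟨r t *ᵥ v, fun e => v0 ?_, fun g i => ?_⟩
  · rw [← one_mulVec v, ← map_one r, ← inv_mul_cancel t, map_mul, ← mulVec_mulVec, e, mulVec_zero]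
  · refine Eq.trans ?_ (congrArg (r t *ᵥ ·) (k _ (c g i)))
    rw [mulVec_mulVec, mulVec_mulVec, ← map_mul, ← map_mul, ← mul_assoc, ← mul_assoc,
      mul_inv_cancel, one_mul]

theorem zero (d : ∀ g, Inert P g → (r g).det = 1) (n : ¬ No r p) (o : Ov p P) :
    (∀ g, Inert P g → (r g - 1).det = 0) ∧
      ∀ g k, Inert P g → Inert P k → (r g - 1) * (r k - 1) = 0 :=
  let ⟨_, v0, e⟩ := fix n o
  ⟨fun g i => det_fix v0 (e g i), fun _ _ a b =>
    prod_zero (I := inP P) d (fun g i => det_fix v0 (e g i)) a b⟩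

/-- the multiplicative factor -/
theorem mul (lc : ∀ n, IsOpen (Pg.Kr r n : Set GQ)) (d : ∀ g, Inert P g → (r g).det = 1)
    (n : ¬ No r p) (o : Ov p P) (h2 : p ≠ 2) (f : Fb p P φ) (g : Gn p P τ) (m : Mu r t p) (s : ℤ_[2]) :
    t ≠ 0 ∧ ∃ e : ℕ, 2 ^ e * (C (p : ℤ_[2]) - C (t * s) * X) ∈
      I2 (Nt ((X : ℤ_[2][X]) • (s • r φ).map C) ((r τ).map C) p) := by
  obtain ⟨z0, z⟩ := zero d n o
  obtain ⟨a, b⟩ := tame lc o h2 f g z
  obtain ⟨⟨k, i, k1⟩, m⟩ := m P o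
  have n0 : r τ - 1 ≠ 0 := fun e => k1 (a (sub_eq_zero.1 e) k i)
  have c : r φ * (r τ - 1) = ((t : ℤ_[2]) * p) • (r τ - 1) := by
    ext i j
    have := congrFun (m (fun x => (r τ - 1) x j) (fun k ik => funext fun x => by
      have := congrFun₂ (z k τ ik g.1) x j
      rw [sub_mul, one_mul] at this
      exact sub_eq_zero.1 this) φ f) i
    rw [← Int.cast_smul_eq_zsmul ℤ_[2], Int.cast_mul, Int.cast_natCast] at this
    exact this
  refine ⟨fun e => n0 ?_, ?_⟩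
  · have := congrArg (r φ⁻¹ * ·) c
    simpa [e, ← mul_assoc, ← map_mul] using this
  · have := eul_m (A := s • r φ) (t := t * s) (odd_unit o.1 h2) n0
      (by rw [trace_sub, tr_two (d τ g.1) (z0 τ g.1)]; simp) (z0 τ g.1) (z τ τ g.1 g.1)
      (by rw [smul_mul_assoc, c, smul_smul]; congr 1; ring)
      (by rw [add_sub_cancel, smul_mul_assoc, b, mul_smul_comm])
    rwa [add_sub_cancel] at this

theorem map_ne {E : ℤ_[2][X]} (h : IsUnit (E.eval 0)) : E.map PadicInt.toZMod ≠ 0 := fun e => by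
  have := (h.map PadicInt.toZMod).ne_zero
  rw [← eval₂_at_apply, map_zero, eval₂_eq_eval_map, e, eval_zero] at this
  exact this rfl

variable {A B : ℤ}

theorem gd (h : El A B) (hp : p.Prime) (b : ¬ (p : ℤ) ∣ 2 * (4 * A ^ 3 + 27 * B ^ 2)) :
    Gd (mt (hq h)) (al A B p) p := fun P o => by
  have : Fact p.Prime := ⟨hp⟩
  refine ⟨fun g i => ?_, fun φ f => ?_⟩
  · have := congrArg Units.val (P004M.TE.unr_rep (hq h) b P o.2.1 o.2.2 g i)
    rw [P004M.TE.rep_val, Units.val_one, ← map_one (algebraMap ℤ_[2] ℚ_[2]).mapMatrix] at this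
    exact Matrix.map_injective Subtype.val_injective this
  · rw [(P004M.TE.frob_mt (hq h) b ⟨P, o.2.1, o.2.2, f⟩).1, P004M.TE.al_eq b, Int.cast_neg]

end Lb

open Lb in
/-- **row LGB** -/
theorem lgb : LGB := by
  intro A B h N G a d S c gp v y pl rn ad d0 lg pm bad cc cj yg fx
  have cf := P004N.H461.pfCf N G a rn
  have d4 : d % 4 = 1 := by have := ad.2; omega
  let r := P004M.TE.mt (hq h)
  let ε := (Te.qd d4).ch ℤ_[2]
  have he : ∀ g, ε g = sd d g := fun g => rfl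
  have sq : ∀ g, ε g ^ 2 = 1 := fun g => by rw [_root_.sq, he, ← Int.cast_mul, Kx.Tw.sd_sq, Int.cast_one]
  have e1 : ∀ {g}, P004S.nu d g = 0 → ε g = 1 := fun k => by
    rw [he, Kx.Tw.sd_eq_one.2 k, Int.cast_one]
  have hρ : (fun g => sd d g • r g) = tr ε r := funext fun g => (Int.cast_smul_eq_zsmul _ _ _).symm
  have dr : ∀ g, (r g).det = cz g := Ki.det_mt _
  have dρ : ∀ g, (tr ε r g).det = cz g := fun g => by
    rw [← dr, ← one_mul (det (r g)), ← sq g]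
    exact det_smul _ _
  have two : 2 ∈ S := bad 2 Nat.prime_two (.inl ⟨N * d * (4 * A ^ 3 + 27 * B ^ 2), by push_cast; ring⟩)
  have good : ∀ l : ℕ, l.Prime → l ∉ S → Gd r (a l) l ∧ ¬ (l : ℤ) ∣ d := fun l hl m => by
    have k := _root_.mt (bad l hl) m
    rw [not_or, not_not] at k
    exact ⟨k.2 ▸ gd h hl fun e => k.1 (e.trans ⟨N * d, by ring⟩),
      fun e => k.1 ((e.mul_left _).mul_right _)⟩
  let σ := S.filter fun p => p ≠ 2 ∧ ¬ No (tr ε r) p
  have hσ : ∀ {p}, p ∈ σ ↔ p ∈ S ∧ p ≠ 2 ∧ ¬ No (tr ε r) p := Finset.mem_filter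
  have loc : ∀ p ∈ σ, ¬ (p : ℤ) ∣ d ∧ (¬ p ∣ N ∧ Gd r (a p) p ∨ p ∣ N ∧ Mu r (a p) p) := fun p m =>
    (lg p (pm p (hσ.1 m).1) (hσ.1 m).2.1).resolve_left (hρ ▸ (hσ.1 m).2.2)
  have ei : ∀ p ∈ σ, ∀ P g, Ov p P → Inert P g → ε g = 1 := fun p m P g o i =>
    e1 (P004S.nu_inert o (hσ.1 m).2.1 (loc p m).1 i)
  have mu : ∀ p ∈ σ, p ∣ N → a p ≠ 0 ∧ ∃ e : ℕ,
      2 ^ e * (C (p : ℤ_[2]) - C (a p * ε (pl.σ p)) * X) ∈
        I2 (Nt ((X : ℤ_[2][X]) • (ε (pl.σ p) • r (pl.σ p)).map C) ((r (pl.τ p)).map C) p) :=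
    fun p m k => by
    obtain ⟨s, p2, n⟩ := hσ.1 m
    have o := pl.ov p (pm p s)
    exact mul (Pg.Kr_open _) (fun g i => (dr g).trans (Pg.cz_inert o p2 i))
      (fun q => n fun P o v f => q P o v fun g i => by
        have := f g i
        rwa [show tr ε r g = r g by rw [← one_smul ℤ_[2] (r g), ← ei p m P g o i]; rfl] at this)
      o p2 (pl.fb p o.1) (pl.gn p o.1 p2) ((loc p m).2.resolve_left fun x => x.1 k).2 (ε (pl.σ p))
  refine ⟨⟨r, ε, S, σ, pl, c, gp, fun p => C (p : ℤ_[2]) - C (a p * ε (pl.σ p)) * X +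
    if p ∣ N then 0 else X ^ 2, Pg.Kr_open _, dr, two, pm,
    fun l P i o m k => ⟨((good l o.1 m).1 P o).1 i k,
      e1 (P004S.nu_inert o (fun e => m (e ▸ two)) (good l o.1 m).2 k)⟩, sq, cc,
    e1 (Int.toNat_of_nonneg d0.le ▸ P004S.nu_nat_conj _ cc), fx, ⟨v, cj⟩,
    fun Y => (Pg.abs _).imp fun e k => k Y, fun k => ?_, fun p m => ⟨(hσ.1 m).1, (hσ.1 m).2.1⟩,
    fun p m g i => ?_, fun p m p2 n => ?_, fun p m => map_ne ?_, fun p m => ?_⟩,
    ⟨⟨rn.pos.ne', Int.squarefree_natAbs.2 ad.1, fun p hp k => bad p hp (.inl ?_),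
      fun g m => by rw [he, Te.sd_hm d4 m, Int.cast_one], fun p m => ⟨fun k => (loc p m).1
        (Int.natCast_dvd.2 k), fun k => (mu p m ((dvd_pow_self p two_ne_zero).trans k)).1
          (cf.bad2 p (pm p (hσ.1 m).1) k), fun k => (mu p m k).1⟩,
      fun l P o k => ?_, fun p _ => rfl⟩, rfl, he, ad, d0, bad, ?_⟩,
    rfl, rfl, rfl, rfl⟩
  · obtain ⟨u, m, -, w, -, x, t, k, w0, -⟩ := Pg.ex_u (hq h) k
    exact ⟨u, m, x, by rwa [t, sub_sub_cancel], by rw [t]; exact fun e => w0 (sub_eq_self.1 e)⟩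
  · obtain ⟨s, p2, n⟩ := hσ.1 m
    have o := pl.ov p (pm p s)
    exact (_root_.sq _).trans ((zero (fun g i => (dρ g).trans (Pg.cz_inert o p2 i)) n o).2 g g i i)
  · have o := pl.ov p (pm p m)
    by_contra! z
    obtain ⟨w, w0, e⟩ := kol (ρ := tr ε r) (I := inP (pl.P p))
      (fun g i => (dρ g).trans (Pg.cz_inert o p2 i)) z
    exact n (hσ.2 ⟨m, p2, fun q => w0 (q _ o w e)⟩)
  · have u := odd_unit (pm p (hσ.1 m).1) (hσ.1 m).2.1
    split_ifs <;> simpa using u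
  · obtain ⟨s, p2, n⟩ := hσ.1 m
    have o := pl.ov p (pm p s)
    have i := (pl.gn p o.1 p2).1
    rw [ei p m _ _ o i, one_smul]
    split_ifs with k
    · rw [add_zero]
      exact (mu p m k).2
    · have g := ((loc p m).2.resolve_right fun x => k x.1).2 _ o
      refine ⟨0, ?_⟩
      rw [pow_zero, one_mul, g.1 _ i, Matrix.map_one _ C_0 C_1, ← g.2 _ (pl.fb p o.1), mul_comm (trace _),
        ← smul_eq_mul (ε _), ← trace_smul]
      exact eul_g (odd_unit o.1 p2) ((dρ _).trans (cz_fb o p2 (pl.fb p o.1)))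
  · refine ((Int.natCast_dvd.2 (by simpa [Int.natAbs_mul] using k) : (p : ℤ) ∣ N * d).trans ?_)
    exact ⟨2 * (4 * A ^ 3 + 27 * B ^ 2), by ring⟩
  · by_cases m : l ∈ S
    · exact ((loc l (k m).1).2.resolve_right fun x => (k m).2 x.1).2 P o
    · exact (good l o.1 m).1 P o
  · rw [dotProduct, Fin.sum_univ_two] at yg
    exact (IsLocalRing.isUnit_or_isUnit_of_add_one yg).elim
      (fun u => ⟨0, isUnit_of_mul_isUnit_right u⟩) fun u => ⟨1, isUnit_of_mul_isUnit_right u⟩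

end Vale.Agent.P014T.Ct
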