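import Vale.Agent.P014T.Ct.St
import Vale.Agent.P014T.Ba.Prs

/-! # P014T, block C-TOP: the row `PRS` -/

namespace Vale.Agent.P014T.Ct

/-- **row PRS** -/
theorem prs : PRS := fun _ _ t t' _ _ a b c d e f g h i => Ba.Tt.prs0 t t' a b c d e f g h i

end Vale.Agent.P014T.Ct
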