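import Vale.Agent.P014T.Ct.Bas
import Vale.Agent.P014T.Pp.Pzx
import Vale.Agent.P014T.Dr.Shp

/-! # P014T, block C-TOP, row RLC: the unit class and the primitive class (helper46) -/

set_option autoImplicit false
set_option linter.all false

open NumberField Matrix Filter PowerSeries Set
open scoped Classical

noncomputable section

namespace Vale.Agent.P014T.Ct

open Vale.Agent.P022 (Qb GQ IsConj)
open Vale.Agent.P027M.S (Inert)
open Vale.Agent.P022E.GW (Ov Fb)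
open Vale.Agent.P004S (Pl)
open Vale.Agent.P004F (La Rj cj mj M2)
open PadicInt (toZModPow toZMod)
open Dr (Hm Ha Zn aa am Gr Raw Eu Fm Cd Ch Co cor nm ch_iff Hm_le)
open Pq (Zq)
open Pp (Bs Tw)

namespace Rl

section gen

variable {A : Type} [CommRing A]

theorem fin1 {α : GQ → M2 A} {s δ e e' k k' f : A} {u v z z' : GQ → Fin 2 → A}
    (h : Ch ⊤ α ((δ * k' * s) • u) ((δ * e * e') • v)) (h' : Ch ⊤ α z' (δ • v)) (o : k • z' = f • z) :
    Ch ⊤ α ((k * k' * δ * s) • u) ((e * (e' * f)) • z) := by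
  rw [ch_iff, map_smul, map_smul] at h
  rw [ch_iff, map_smul] at h'
  have := congrArg (Dr.Bd ⊤ α).mkQ o
  rw [map_smul, map_smul, h'] at this
  rw [ch_iff, map_smul, map_smul]
  linear_combination (norm := module) k • h + (e * e') • this

theorem fin2 {α : GQ → M2 A} {s e : A} {u z x x' : GQ → Fin 2 → A} (h : Ch ⊤ α (s • u) (e • z))
    (k : Ch ⊤ α x u) (k' : Ch ⊤ α x' (2 • z)) : Ch ⊤ α ((2 * s) • x) (e • x') := by
  rw [ch_iff, map_smul, map_smul] at h ⊢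
  rw [ch_iff.1 k, ch_iff.1 k', map_nsmul, smul_comm, mul_smul, h, two_smul, two_smul]

end gen

variable {b : Bs} {N D c : ℕ} {a : ℕ → ℤ} {t : Tw b}

/-- two framed cocycles in the same class -/
theorem frm (j : ℕ) {x x' : GQ → Fin 2 → Rj (j + 1)} (h : x b.c = 0) (h' : x' b.c = 0)
    (e : Ch ⊤ (t.a j) x x') : ∃ l : Rj (j + 1), (2 : Rj (j + 1)) • x =
      (2 : Rj (j + 1)) • x' + l • db (t.a j) (cj _ ∘ b.gp) := by
  obtain ⟨w, e⟩ := e
  obtain ⟨v, hv⟩ := b.cj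
  have a1 : t.a j b.c = (b.r b.c).map (cj _) := by
    rw [t.a_eq, t.hΨ, b.εc, (t.tq j).cj _ b.cc, ZMod.val_zero, pow_zero, map_one, one_mul, one_smul]
  have a2 := e b.c trivial
  rw [h, h', sub_self, eq_comm, sub_eq_zero] at a2
  have a3 : (2 : Rj (j + 1)) • w = ((cj _ ∘ v) ⬝ᵥ w) • (cj _ ∘ b.gp) := by
    have := congrArg (fun B => (cj (j + 1)).mapMatrix B *ᵥ w) hv
    simp only [map_add, map_one, RingHom.mapMatrix_apply, add_mulVec, one_mulVec, ← a1, a2] at this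
    rw [two_smul, this]
    funext i
    simp [mulVec, dotProduct, vecMulVec]
    ring
  refine ⟨(cj _ ∘ v) ⬝ᵥ w, funext fun g => ?_⟩
  rw [Pi.add_apply, Pi.smul_apply, Pi.smul_apply, Pi.smul_apply, db, ← mulVec_smul, ← a3, mulVec_smul,
    sub_mulVec, one_mulVec, ← e g trivial, ← smul_add, add_sub_cancel]

/-- the multiplicative primes -/
def sN (b : Bs) (N : ℕ) : Finset ℕ := b.σ.filter (· ∣ N)

/-- the good primes -/
def sG (b : Bs) (N : ℕ) : Finset ℕ := b.σ.filter (¬ · ∣ N)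

theorem Ej_eq (h : Lf N a D b) (j : ℕ) : Ej t j =
    (∏ p ∈ sN b N, ((p : Rj (j + 1)) - a p * t.Ψ j (b.pl.σ p))) *
      ∏ l ∈ sG b N, ((l : Rj (j + 1)) - a l * t.Ψ j (b.pl.σ l) + t.Ψ j (b.pl.σ l) ^ 2) := by
  rw [Ej, ← Finset.prod_filter_mul_prod_filter_not b.σ (· ∣ N)]
  congr 1 <;> refine Finset.prod_congr rfl fun p m => ?_
  · rw [h.eE p (Finset.mem_filter.1 m).1, if_pos (Finset.mem_filter.1 m).2, add_zero, t.hΨ]
    simp only [Polynomial.eval₂_sub, Polynomial.eval₂_mul, Polynomial.eval₂_C, Polynomial.eval₂_X]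
    rw [map_mul, map_intCast, map_natCast, mul_assoc]
  · rw [h.eE p (Finset.mem_filter.1 m).1, if_neg (Finset.mem_filter.1 m).2, t.hΨ, mul_pow,
      ← map_pow (cj _), b.sq, map_one, one_mul]
    simp only [Polynomial.eval₂_sub, Polynomial.eval₂_add, Polynomial.eval₂_mul, Polynomial.eval₂_C,
      Polynomial.eval₂_X, Polynomial.eval₂_X_pow]
    rw [map_mul, map_intCast, map_natCast, mul_assoc]

theorem dx (h : Lf N a D b) : Dx N (sN b N) := fun p m =>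
  have m' := Finset.mem_filter.1 m
  ⟨b.pr p (b.sub p m'.1).1, (b.sub p m'.1).2, m'.2, (h.nd p m'.1).2.1⟩

theorem sub (c' : ℕ) : sN b N ⊆ insert c' (b.S \ sG b N) := fun p m => Finset.mem_insert_of_mem
  (Finset.mem_sdiff.2 ⟨(b.sub p (Finset.mem_filter.1 m).1).1, fun f =>
    (Finset.mem_filter.1 f).2 (Finset.mem_filter.1 m).2⟩)

theorem gr (h : Lf N a D b) (n : ℕ) {c' : ℕ} (hc : Sm N c') :
    Gr (b.ρ n) (insert c' (b.S \ sG b N)) a (Aq n N (sN b N) c') :=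
  B0.gr_of h n (Finset.mem_insert_of_mem (Finset.mem_sdiff.2
    ⟨b.two, fun f => (b.sub 2 (Finset.mem_filter.1 f).1).2 rfl⟩)) hc (Finset.mem_insert_self _ _)
    (dx h) (sub c') fun l s m => by
      by_contra e
      exact s (Finset.mem_insert_of_mem (Finset.mem_sdiff.2 ⟨m, fun f => e (Finset.mem_filter.1 f)⟩))

/-- the conductor without the tame primes -/
theorem split (h : Lf N a D b) {n M : ℕ} (L : Lv n N b.S M) : ∃ M', M = M' * (∏ p ∈ sG b N, p) *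
    ∏ p ∈ sN b N, p ∧ (∀ p ∈ b.σ, ¬ p ∣ M') ∧ D ∣ M' ∧ 2 ^ (n + 2) ∣ M' ∧ N ∣ M' * ∏ p ∈ sN b N, p := by
  have e : (∏ p ∈ sG b N, p) * ∏ p ∈ sN b N, p = ∏ p ∈ b.σ, p := by
    rw [mul_comm]; exact Finset.prod_filter_mul_prod_filter_not ..
  have pr p (m : p ∈ b.σ) := b.pr p (b.sub p m).1
  have dv p (m : p ∈ b.S) : p ∣ M := Nat.dvd_of_mem_primeFactors (L.pf ▸ m)
  obtain ⟨M', rfl⟩ : ∏ p ∈ b.σ, p ∣ M := Finset.prod_primes_dvd _ (fun p m => (pr p m).prime)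
    fun p m => dv p (b.sub p m).1
  have co {x : ℕ} {T : Finset ℕ} (s : T ⊆ b.σ) (k : ∀ p ∈ T, ¬ p ∣ x) : x.Coprime (∏ p ∈ T, p) :=
    Nat.Coprime.prod_right fun p m => ((Nat.Prime.coprime_iff_not_dvd (pr p (s m))).2 (k p m)).symm
  refine ⟨M', by rw [mul_assoc, e, mul_comm], fun p m d => (h.nd p m).2.1 (L.sq p (pr p m)
    (b.sub p m).2 ?_), (co subset_rfl fun p m => (h.nd p m).1).dvd_of_dvd_mul_left ?_,
    (co subset_rfl fun p m d => (b.sub p m).2 ((Nat.prime_dvd_prime_iff_eq (pr p m) Nat.prime_two).1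
      ((pr p m).dvd_of_dvd_pow d))).dvd_of_dvd_mul_left L.two,
    (co (T := sG b N) (Finset.filter_subset _ _) fun p m =>
      (Finset.mem_filter.1 m).2).dvd_of_dvd_mul_left ?_⟩
  · rw [sq]; exact mul_dvd_mul (Finset.dvd_prod_of_mem _ m) d
  · rw [← Nat.prod_primeFactors_of_squarefree h.sqf]
    exact Finset.prod_primes_dvd _ (fun p m => (Nat.prime_of_mem_primeFactors m).prime) fun p m =>
      dv p (h.bad p (Nat.prime_of_mem_primeFactors m) ((Nat.dvd_of_mem_primeFactors m).mul_left _))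
  · rw [mul_left_comm, e, mul_comm]; exact L.dv

/-- the second smoothing prime -/
theorem ex_c (h : Lf N a D b) (hc : Sm (N * D) c) (j B : ℕ) : ∃ c', B < c' ∧ Sm (N * D) c' ∧
    c' ≡ c [MOD 2 ^ (j + 1)] ∧ c' ≡ 1 [MOD D * t.c j] := by
  have c0 := (t.tq j).sq.ne_zero
  have k : (2 ^ (j + 1) * (N * D)).Coprime (t.c j) := Nat.coprime_of_dvd fun p m d d' =>
    ((t.tq j).cy p m d').2 ((m.dvd_mul.1 d).elim (fun e =>
      (Nat.prime_dvd_prime_iff_eq m Nat.prime_two).1 (m.dvd_of_dvd_pow e) ▸ b.two) (h.bad p m))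
  obtain ⟨r, r1, r2⟩ := Nat.chineseRemainder k c 1
  have k1 : c.Coprime (2 ^ (j + 1) * (N * D)) := (Nat.Coprime.pow_right _ ((Nat.coprime_primes hc.1
    Nat.prime_two).2 (by have := hc.2.1; omega))).mul_right (Nat.coprime_of_mul_modEq_one 1 (by
      simpa using hc.2.2))
  obtain ⟨p, p1, p2, p3⟩ := Nat.forall_exists_prime_gt_and_modEq (B + 3)
    (q := 2 ^ (j + 1) * (N * D) * t.c j) (a := r)
    (mul_ne_zero (mul_ne_zero (by positivity) (mul_ne_zero h.ne h.sqf.ne_zero)) c0)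
    (Nat.Coprime.mul_right (by rwa [Nat.Coprime, Nat.ModEq.gcd_eq r1])
      (by rw [Nat.Coprime, Nat.ModEq.gcd_eq r2]; simp))
  have q1 := (p3.of_mul_right _).trans r1
  have q2 := (q1.of_mul_left _).trans hc.2.2
  exact ⟨p, by omega, ⟨p2, by omega, q2⟩, q1.of_mul_right _, (Nat.modEq_and_modEq_iff_modEq_mul
    (k.coprime_mul_left.coprime_mul_left)).1 ⟨q2.of_mul_left _, (p3.of_mul_left _).trans r2⟩⟩

theorem cd (h : Lf N a D b) (j : ℕ) : Cd (D * t.c j) (t.Ψ j) := fun g m => by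
  rw [t.hΨ, h.cd g (Hm_le ⟨_, rfl⟩ m), (t.tq j).ker g (Hm_le (dvd_mul_left _ _) m), map_one,
    ZMod.val_zero, pow_zero, mul_one]

/-- one level -/
theorem lev (h : Lf N a D b) (hc : Sm (N * D) c) (cS : c ∉ b.S) (tx : Tx t c) {g₀ : GQ}
    (g0 : g₀ ∈ Ha) (j : ℕ) {M : ℕ} {y : Fy (t.N j)} (L : Lv (t.N j) N b.S M)
    (Z : Zy (b.ρ (t.N j)) N a y) : ∃ (S : Finset ℕ) (Ad : ℕ → Prop) (z : Fm (t.N j)) (M₀ : ℕ),
      Gr (b.ρ (t.N j)) S a Ad ∧ Eu (b.ρ (t.N j)) S a Ad z ∧ Ad M₀ ∧ t.c j * t.q j ∣ M₀ ∧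
      Cd M₀ b.ε ∧ M₀.primeFactors ⊆ b.S ∪ t.T j ∧
      Ch ⊤ (t.a j) (cj (j + 1) (((∏ p ∈ sG b N, p : ℕ) * kp a (sN b N) : ℤ) * dl b g₀ ^ 2 * s0 c) •
        cu t j c M y)
        ((sm (t.Ψ j) (b.pl.σ c) c * Ej t j) • z M₀ _ (t.ι j) (t.Ψ j)) := by
  obtain ⟨M', rfl, m1, m2, m3, m4⟩ := split h L
  set k := ∏ p ∈ sG b N, p
  set d := ∏ p ∈ sN b N, p
  set w := t.c j * t.q j
  have w0 : w ≠ 0 := mul_ne_zero (t.tq j).sq.ne_zero (t.pq j).1.ne_zero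
  have M0 : M' * k * d * w ≠ 0 := mul_ne_zero L.ne w0
  obtain ⟨c', b1, b2, b3, b4⟩ := ex_c (t := t) h hc j (M' * k * d * w)
  have sm' {e} (x : Sm (N * D) e) : Sm N e := ⟨x.1, x.2.1, x.2.2.of_mul_right _⟩
  have G := gr h (t.N j) (sm' b2)
  have R := Z.raw _ _ c' (dx h) (sm' b2) (Finset.mem_insert_self _ _) (sub c')
  obtain ⟨z, E, hz⟩ := Dr.shp _ _ _ _ _ _ G R g₀ g0
  have nS {p} (x : p.Prime) (m : p ∈ b.S) : ¬ p ∣ w := fun e =>
    Pp.G0.out m (Nat.mem_primeFactors.2 ⟨x, e, w0⟩)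
  have inS {p} (x : p.Prime) (e : p ∣ M' * k * d) : p ∈ b.S :=
    L.pf ▸ Nat.mem_primeFactors.2 ⟨x, e, L.ne⟩
  have n1 : ¬ c' ∣ M' * k * d * w := Nat.not_dvd_of_pos_of_lt (Nat.pos_of_ne_zero M0) b1
  have n2 : ¬ c ∣ M' * k * d * w := fun e => (hc.1.dvd_mul.1 e).elim (fun e => cS (inS hc.1 e))
    fun e => (hc.1.dvd_mul.1 e).elim (fun e => ((tx.tq j).cy c hc.1 e).2 (Finset.mem_insert_self _ _))
      fun e => tx.ne j ((Nat.prime_dvd_prime_iff_eq hc.1 (t.pq j).1).1 e).symm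
  have n3 p (m : p ∈ b.σ) : ¬ p ∣ M' * w := fun e =>
    ((b.pr p (b.sub p m).1).dvd_mul.1 e).elim (m1 p m) (nS (b.pr p (b.sub p m).1) (b.sub p m).1)
  have e1 : M' * k * d * w = M' * w * d * k := by ring
  have v0 : M' * w * d ∣ M' * k * d * w := ⟨k, e1⟩
  have cp {e x : ℕ} (p : e.Prime) (n : ¬ e ∣ x) : x.Coprime e := ((Nat.Prime.coprime_iff_not_dvd p).2 n).symm
  have A0 : Aq (t.N j) N (sN b N) c' (M' * w * d) := ⟨ne_zero_of_dvd_ne_zero M0 v0,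
    (m3.mul_right _).mul_right _, by rw [mul_right_comm]; exact m4.mul_right _,
    cp b2.1 fun e => n1 (e.trans v0), fun p m e => (dx h p m).2.2.2 (L.sq p (dx h p m).1 (dx h p m).2.1
      ((Nat.Coprime.pow_left 2 (cp (dx h p m).1 (nS (dx h p m).1
        (b.sub p (Finset.mem_filter.1 m).1).1)).symm).dvd_of_dvd_mul_right (e.trans v0)))⟩
  have C0 : Cd (M' * w) (t.Ψ j) := (cd h j).mono (mul_dvd_mul m2 (dvd_mul_right _ _))
  obtain ⟨A1, o⟩ := B0.eu_prod (ι := t.ι j) G E b.pl A0 (C0.mono ⟨_, rfl⟩) (sG b N) fun l m =>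
    have m' := Finset.mem_filter.1 m
    have pl := b.pr l (b.sub l m'.1).1
    ⟨pl, fun f => (Finset.mem_insert.1 f).elim (fun e => n1 (e ▸
      (((Finset.dvd_prod_of_mem _ m).mul_left _).mul_right _).mul_right _)) fun f =>
        (Finset.mem_sdiff.1 f).2 m, fun e => (pl.dvd_mul.1 e).elim (n3 l m'.1) fun e => by
      obtain ⟨q, k1, k2⟩ := (Prime.dvd_finset_prod_iff pl.prime _).1 e
      exact m'.2 (k2.trans (dx h q k1).2.2.1)⟩
  have r := Z.rel (sN b N) c c' (M' * w * d * k) (M' * w * k) _ (t.ι j) (t.Ψ j) b.pl (dx h) (sm' hc)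
    (sm' b2) (mul_right_comm ..) ⟨A1.1, A1.2.1, A1.2.2.1, (cp hc.1 (e1 ▸ n2)).mul_right A1.2.2.2.1,
      A1.2.2.2.2⟩ (C0.mono ⟨_, rfl⟩) g₀ g0
  obtain ⟨-, z2, -⟩ := hz _ _ (t.ι j) (t.Ψ j) A1 (C0.mono ⟨_, mul_assoc ..⟩)
  have s1 : sm (t.Ψ j) (b.pl.σ c') c' = cj (j + 1) (s0 c) := by
    have e : (c' : Rj (j + 1)) = c := by
      have := (ZMod.natCast_eq_natCast_iff _ _ _).2 b3
      obtain ⟨f⟩ := Pp.ex_io (R := Rj (j + 1)) Pp.Rg.two_mq
      simpa using congrArg f this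
    rw [sm, cd h j _ (inv_mem fun x e => ?_), e, s0]
    · simp
    · rw [Dr.root_cong (b.pl.ov c' b2.1) (fun e => n1 (e.trans ((mul_dvd_mul m2
        (dvd_mul_right (t.c j) (t.q j))).trans ((dvd_mul_right _ d).trans v0)))) (b.pl.fb c' b2.1) e,
        pow_eq_pow_mod _ e, b4, ← pow_eq_pow_mod _ e, pow_one]
  have s2 : t.ι j (b.ρ (t.N j) g₀ - 1).det = cj (j + 1) (dl b g₀) := by
    rw [← Pp.io_eq (t.ι j), dl, (toZModPow _).map_det, map_sub, map_one]; rfl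
  refine ⟨_, _, z, M' * w * d, G, E, A0, (dvd_mul_left _ _).mul_right _,
    h.cd.mono ((m2.mul_right _).mul_right _), fun p m => ?_, ?_⟩
  · have x := Nat.prime_of_mem_primeFactors m
    exact Finset.mem_union.2 ((x.dvd_mul.1 ((Nat.dvd_of_mem_primeFactors m).trans v0)).imp
      (inS x) fun e => Nat.mem_primeFactors.2 ⟨x, e, w0⟩)
  · have := fin1 r z2 o
    rw [s1, s2, ← Ej_eq h, ← e1] at this
    rwa [map_mul, map_mul, map_pow, map_intCast, Int.cast_mul, Int.cast_natCast, Nat.cast_prod]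

end Rl

open Rl

/-- **row RLC** -/
theorem rlc : RLC := fun b N a D t c g₀ M y h hc cS tx g0 L Z => by
  choose S Ad z M₀ a1 a2 a3 a4 a5 a6 a7 using fun j => lev h hc cS tx g0 j (L j) (Z j)
  let x : t.Es := ⟨S, a, Ad, z, M₀, a1, a2, a3, a4, a5, a6⟩
  refine ⟨x, (∏ p ∈ sG b N, p : ℕ) * kp a (sN b N), mul_ne_zero (Nat.cast_ne_zero.2
    (Finset.prod_ne_zero_iff.2 fun p m => (b.pr p (b.sub p (Finset.mem_filter.1 m).1).1).ne_zero))
    (Finset.prod_ne_zero_iff.2 fun p m => ?_), fun j => ?_⟩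
  · have := (dx h p m).1.two_le
    exact mul_ne_zero (mul_ne_zero (by omega) ((h.nd p (Finset.mem_filter.1 m).1).2.2
      (dx h p m).2.2.1)) (by positivity)
  obtain ⟨r, Q, u, p, -⟩ := Tw.pn0 x j
  obtain ⟨V, v⟩ := p.pz x
  have m := (v.bij _).mapsTo (show Vᵀ 1 ∈ _ from funext fun i => congrFun (congrFun v.ker i) 1)
  refine ⟨fun g => u g *ᵥ Vᵀ 1, m, v.cl, fun x₁ m₁ e => ?_⟩
  obtain ⟨l, hl⟩ := frm (t := t) j (by rw [Pi.smul_apply, m₁.2.2.2, smul_zero])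
    (by rw [Pi.smul_apply, show u b.c *ᵥ Vᵀ 1 = 0 from m.2.2.2, smul_zero]) (fin2 (a7 j) e v.cl)
  refine ⟨l, ?_⟩
  rw [smul_smul, smul_smul, ← mul_assoc 2 (sm _ _ _)] at hl
  rw [← hl, ← map_ofNat (cj (j + 1)) 2, ← map_mul, ← map_mul]
  congr 2
  ring

end Vale.Agent.P014T.Ct
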