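import Vale.Agent.P014T.Ct.St
import Vale.Agent.P014T.Pp.Twx
import Vale.Agent.P014T.Pg.Bas

/-! # P014T, block C-TOP: the towers (helper86) -/

set_option autoImplicit false
set_option linter.all false

open NumberField Matrix Filter PowerSeries Set

noncomputable section

namespace Vale.Agent.P014T.Ct

namespace Tr

open Vale.Agent.P022 (Qb GQ)
open Vale.Agent.P004F (La Rj cj mj hq)
open Vale.Agent.P004F.Pat (U U_ge)
open Vale.Agent.P004F.En (Gq rep_ok)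
open Vale.Agent.P004S (Rp mt ep)
open Vale.Agent.P004C.Mu.Lv (mq)
open Vale.Agent.P004M.TE (rep)
open Dr (Zn)
open Pp

theorem tq_mono {S S' : Finset ℕ} {n c : ℕ} {e : GQ → ZMod (2 ^ n)} (le : S ⊆ S')
    (h : Mu.Tq S' n c e) : Mu.Tq S n c e :=
  ⟨h.add, h.ker, h.cj, h.sq, h.one, fun q a d => ⟨(h.cy q a d).1, fun m => (h.cy q a d).2 (le m)⟩,
    h.ram, h.par, fun p m => h.fro p (le m)⟩

theorem zq_mono {r : Rp} {T T' : Finset ℕ} {k : GQ} {J : ℕ} {χ : GQ → ℕ} (le : T ⊆ T') :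
    Mu.Zq r T k J χ ⊆ Mu.Zq r T' k J χ := fun x h =>
  ⟨h.1, h.2.1, fun g ⟨l, a, e⟩ => h.2.2.1 g ⟨l, fun m => a (le m), e⟩, h.2.2.2⟩

theorem gq (b : Bs) {ρ : Rp} (hr : ∀ g, mt ρ g = (b.r g).map (algebraMap ℤ_[2] ℚ_[2])) {m : ℕ}
    {g : GQ} (h : Gq ρ m g) {s : ℤ_[2]} (hs : s ^ 2 = 1) : ¬ 2 ^ (m + 1) ∣ (s • b.r g - 1).det :=
  fun d => by
  have e := P004F.Pat.dvd_iff_norm.1 d
  have l : (2 : ℝ) ^ (-(m + 1 : ℕ) : ℤ) < (1 / 2) ^ m := by
    rw [_root_.zpow_neg, zpow_natCast, ← inv_pow, one_div]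
    exact pow_lt_pow_right_of_lt_one₀ (by norm_num) (by norm_num) m.lt_succ_self
  rw [Gq, ep, hr] at h
  rw [← PadicInt.padic_norm_e_of_padicInt] at e
  rcases sq_eq_one_iff.1 hs with a | a <;> rw [a] at e
  · refine (h.1.trans_eq (congrArg _ ?_)).not_gt (e.trans_lt l)
    simp [det_fin_two, trace_fin_two]; ring
  · refine (h.2.trans_eq (congrArg _ ?_)).not_gt (e.trans_lt l)
    simp [det_fin_two, trace_fin_two]; ring

/-- the character of the tower -/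
def ps (b : Bs) {S : Finset ℕ} {j c : ℕ} {e : GQ → ZMod (2 ^ (2 * j + 4))}
    (h : Mu.Tq S (2 * j + 4) c e) : GQ →* Rj (j + 1) :=
  (cj _).toMonoidHom.comp b.ε * Rg.ch (x := mj _ (1 + X))
    (by rw [map_add, map_one]; exact Rg.X_ord (by omega)) (by simpa using h.add 1 1) h.add

end Tr

open Vale.Agent.P004F (Rj cj mj hq)
open Vale.Agent.P004F.Pat (U_ge)
open Vale.Agent.P004C.Mu.Lv (mq)
open Vale.Agent.P004M.TE (rep)
open Pp Tr

/-- **the towers** -/
theorem twr : TWR := by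
  intro A B h N a d b c N₀ m pc nc
  have hr g : P004S.mt (rep (hq h)) g = (b.r g).map (algebraMap ℤ_[2] ℚ_[2]) := by
    rw [m.r]; rfl
  have le : b.S ⊆ insert c b.S := Finset.subset_insert _ _
  have R := P004F.En.rep_ok (hq h) (le b.two) fun l p n k => n (le (by
    rcases (Nat.prime_iff_prime_int.1 p).dvd_or_dvd k with k | k
    exacts [m.bad l p (.inl (((k.mul_right _).mul_right _).mul_right _)),
      m.bad l p (.inl (k.mul_left _))]))
  obtain ⟨u, -, big⟩ := Pg.big (hq h)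
  obtain ⟨μ, C₀, z⟩ := Mu.muq3 R (fun p k => (Finset.mem_insert.1 k).elim (· ▸ pc) (b.pr p)) b.pl b.cc
    ⟨u, big⟩
  choose k q e e' a1 a2 a3 a4 a5 a6 a7 a8 a9 using fun j => z (2 * j + 4) ∅ (by omega)
  have n0 j := mul_ne_zero (a1 j).sq.ne_zero (a5 j).ne_zero
  have nq j := (a4 j _ (Nat.mem_primeFactors.2 ⟨a5 j, dvd_mul_left _ _, n0 j⟩)).2.1
  have ι j : Nonempty (Dr.Zn (max (N₀ j) (j + 1)) →+* Rj (j + 1)) :=
    ex_io (pow_eq_zero_of_le (le_max_right _ _) Rg.two_mq)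
  let t : Tw b := ⟨μ + 1, k, q, e, e', _, fun j => (ι j).some, fun j => ps b (a1 j),
    fun j => le_max_right _ _, fun j => tq_mono le (a1 j),
    fun j => (Finset.card_le_card (Nat.primeFactors_mono (dvd_mul_right _ _) (n0 j))).trans
      ((a3 j).trans μ.le_succ),
    fun j l w => b.gq hr (a4 j l (Nat.primeFactors_mono (dvd_mul_right _ _) (n0 j) w)).2.2, a2,
    fun j => ⟨a5 j, fun w => nq j (le w), a6 j⟩,
    fun j g w => (b.rb hr g).symm.trans (R.tr_one_iff.1 fun x y =>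
      (a7 j _ (b.pl.ov _ (a5 j)) g w x y).trans (by norm_num)), fun j g => rfl⟩
  refine ⟨t, fun j => le_max_left _ _, ⟨a1, fun j w => nq j (Finset.mem_insert.2 (.inl w)),
    fun j => (a3 j).trans μ.le_succ, fun j l w s hs => gq b hr (a4 j l w).2.2 hs⟩,
    fun r Q u hu => ?_⟩
  obtain ⟨j, ⟨b1, b2⟩, b3⟩ := ((hu.and (Mu.um_red Q (C₀ + 1))).and (U_ge C₀)).exists
  obtain ⟨f, hf⟩ := Mu.ex_red (Nat.succ_le_succ b3)
  obtain ⟨c1, c2⟩ := a9 j (C₀ + 1) ((Nat.lt_two_pow_self.le).trans' (by omega))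
  refine Mu.lmu0 (map PadicInt.toZMod) Mu.map_sur _ _ f (b2 f hf) (fun g => ?_) b1
    ((Nat.card_mono c1 (zq_mono (Finset.union_subset_union_left le))).trans c2)
  have c : ∀ x, f (cj _ x) = mq _ (C (PadicInt.toZMod x)) := fun x => (hf _).trans (by rw [map_C])
  rw [t.a_eq, t.hΨ, Matrix.map_smul' _ _ _ (map_mul _), map_mul, map_pow, c, b.eps_two, hf,
    map_one, map_one, one_mul, map_add (PowerSeries.map _), map_one, map_X, P004C.Mu.ab, b.rb hr]
  exact congrArg _ (Matrix.ext fun x y => c _)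

end Vale.Agent.P014T.Ct
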