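import Vale.Agent.P014T.Ct.Zx
import Vale.Agent.P014T.Nr.Raw
import Vale.Agent.P014T.Nr.Smo

/-! # P014T, block C-TOP: the classes of Kato (helper38) -/

set_option autoImplicit false
set_option linter.all false

open CongruenceSubgroup Matrix Finset
open scoped MatrixGroups Classical UpperHalfPlane

noncomputable section

namespace Vale.Agent.P014T.Ct

open Vale.Agent.P022 (Qb GQ)
open P027M.M (Mdl FF cv M2 Cyc)
open Dr (Hm Ha Co Zn Tv Hm_open Hm_le Ha_le)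
open Nr
open Pm (Gz op op_of op_int eu ev ev_of ev_eu ZP s_comm)

namespace Zx

section

variable {C : Type} [AddCommGroup C] {σ : GQ →* AddMonoid.End C} {x : C}

theorem op_sg (f : ∀ h ∈ Ha, σ h x = x) (s : GQ) (e : Gz) : op σ e (σ s x) = σ s (op σ e x) := by
  refine MonoidAlgebra.induction_on (motive := fun e => op σ e (σ s x) = σ s (op σ e x)) e
    (fun g => ?_) (fun a b ha hb => ?_) fun r a ha => ?_
  · rw [op_of, s_comm f]
  · rw [map_add]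
    exact (congrArg₂ _ ha hb).trans (map_add _ _ _).symm
  · rw [map_smul]
    exact (congrArg _ ha).trans (map_zsmul _ _ _).symm

theorem op_sum (f : ∀ h ∈ Ha, σ h x = x) (T : Finset GQ) (e : Gz) :
    op σ e (∑ s ∈ T, σ s x) = ∑ s ∈ T, σ s (op σ e x) := by simp only [map_sum, op_sg f]

theorem op_mul (e e' : Gz) : op σ (e * e') x = op σ e (op σ e' x) := by rw [map_mul]; rfl

/-- one smoothing factor -/
def sf (c : ℕ) (φ : GQ) : Gz := ((c ^ 2 : ℕ) : ℤ) - (c : ℤ) * MonoidAlgebra.of ℤ GQ φ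

theorem op_sf (c : ℕ) (φ : GQ) (x : C) : op σ (sf c φ) x = c ^ 2 • x - c • σ φ x := by
  rw [sf, map_sub]
  exact congrArg₂ _ ((op_int σ _ x).trans (natCast_zsmul _ _))
    ((op_mul _ _).trans ((op_int σ _ _).trans ((natCast_zsmul _ _).trans (by rw [op_of]))))

theorem ev_sf {R : Type} [CommRing R] (Ψ : GQ →* R) (c : ℕ) (φ : GQ) :
    ev Ψ (sf c φ * sf c φ) = sm Ψ φ c := by
  rw [map_mul, ← sq, sf, map_sub, map_mul, map_intCast, map_intCast, ev_of, sm]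
  push_cast
  rfl

variable {X : Mdl} {Ξ : Type} [AddCommGroup Ξ] [DistribMulAction Au Ξ] {m N c e n : ℕ}
  {Cu : AddSubgroup Ξ} {Z : Subgroup SL(2, ℤ) → Ξ → FF → FF → C} {ξ : Ξ} {Y : M2} {g h : GQ}

/-- both smoothing numbers -/
theorem smo (R : Ru X m Cu σ Z) (x : Cx X m Cu ξ N c c n Y) (s : Sw N Y) (hc : Sm N c) (he : Sm N e)
    (yc : Cyc n g c) (ye : Cyc n h e) :
    op σ (sf e h * sf e h) (ZL Z ξ c c n Y) = op σ (sf c g * sf c g) (ZL Z ξ e e n Y) := by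
  obtain ⟨x', k⟩ := smo1 R x s (sm_sq he) hc.2.2 he.2.2 yc ye
  have k' := (smo2 R x' s (sm_sq he) hc.2.2 he.2.2 yc ye).2
  have f := op_sg fun h a => Pm.fix_z R (det R) x' (Ha_le x.pos.ne' a)
  simp only [← op_sf] at k k'
  rw [op_mul, op_mul, k, ← k', op_sf c, op_sf c, map_sub, map_nsmul, map_nsmul, f]

end

theorem co_sum {R ι : Type} [CommRing R] {H : Subgroup GQ} {a : GQ → P004F.M2 R} (s : Finset ι)
    {y : ι → GQ → Fin 2 → R} (h : ∀ i ∈ s, Co H a (y i)) : Co H a (∑ i ∈ s, y i) :=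
  sum_induction y _ (fun u v p q =>
    let ⟨W, o, k⟩ := p.lc
    let ⟨W', o', k'⟩ := q.lc
    ⟨fun g b h b' => by
      simp only [Pi.add_apply, p.coc g b h b', q.coc g b h b', mulVec_add]
      abel, W ⊓ W', o.inter o', fun w b b' => by rw [Pi.add_apply, k w b.1 b', k' w b.2 b', add_zero]⟩)
    ⟨fun _ _ _ _ => by simp, ⊤, isOpen_univ, fun _ _ _ => rfl⟩ h

theorem ch_rfl {R : Type} [CommRing R] {H : Subgroup GQ} {a : GQ → P004F.M2 R} (y : GQ → Fin 2 → R) :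
    Dr.Ch H a y y := ⟨0, by simp⟩

theorem dx_dvd {N l : ℕ} {s : Finset ℕ} (D : Dx N s) (hl : l.Prime) (h : l ∣ ∏ p ∈ s, p) : l ∈ s :=
  let ⟨p, a, b⟩ := (hl.prime.dvd_finsetProd_iff _).1 h
  (Nat.prime_dvd_prime_iff_eq hl (D p a).1).1 b ▸ a

theorem sq_mul {p M l : ℕ} (hp : p.Prime) (hl : l.Prime) (n : p ≠ l) (h : ¬ p ^ 2 ∣ M) :
    ¬ p ^ 2 ∣ M * l := fun e =>
  h (((Nat.coprime_primes hp hl).2 n).pow_left 2 |>.dvd_of_dvd_mul_right e)

end Zx

open Zx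

/-- **the classes of Kato** -/
theorem zeta : ZETA Ev.Kz := by
  intro X N G a A B w I x y p γ n h _
  have R := ruk X (P004F.hq p.disc) n
  choose! Y Y1 Y2 Y3 using fun c M (A : M2) x => ex0 (X := X) (hD := P004F.hq p.disc) (n := n)
    (ξ := p.toPw.xi h) (N := N) (c := c) (d := c) (L := M) (Y := A) x
  generalize e0 : ((γ⁻¹ : SL(2, ℤ)) : M2) = g
  have g1 : g.det = 1 := e0 ▸ Matrix.SpecialLinearGroup.det_coe _
  have gd (D : ℕ) (b : ℤ) : (g * !![(D : ℤ), b; 0, 1]).det = D := by simp [g1]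
  have nd {l : ℕ} {s} (D : Dx N s) (hl : l.Prime) (k : l ∉ s) (b : ℤ) :
      ¬ (l : ℤ) ∣ (g * !![((∏ p ∈ s, p : ℕ) : ℤ), b; 0, 1]).det := fun e =>
    k (dx_dvd D hl (Int.natCast_dvd_natCast.1 (e.trans (gd _ b).dvd)))
  have cz {s c M V} (hc : Sm N c) (q : Aq n N s c M) (o : ¬ (2 : ℤ) ∣ det V) :=
    cx X h p (sm_sq hc) (sm_sq hc) q.1 q.2.1 q.2.2.1 o
  have n2 {s} (D : Dx N s) := nd D Nat.prime_two fun k => (D 2 k).2.1 rfl
  have g2 : ¬ (2 : ℤ) ∣ det g := by rw [g1]; decide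
  have hz {s c M} (D : Dx N s) (hc : Sm N c) (q : Aq n N s c M) :=
    And.intro (co_sum (range (∏ p ∈ s, p)) fun (b : ℕ) _ => Y1 _ _ _ (cz hc q (n2 D b)))
      ((map_sum (cl (Ew.rj (P004F.hq p.disc) n)) _ (range (∏ p ∈ s, p))).trans
        (sum_congr rfl fun (b : ℕ) _ => Y2 _ _ _ (cz hc q (n2 D b))))
  have y0 c M : ∑ b ∈ range (∏ p ∈ (∅ : Finset ℕ), p),
      Y c M (g * !![((∏ p ∈ (∅ : Finset ℕ), p : ℕ) : ℤ), (b : ℕ); 0, 1]) = Y c M g := by
    simp [← one_fin_two]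
  refine ⟨fun s c M => ∑ b ∈ range (∏ p ∈ s, p), Y c M (g * !![((∏ p ∈ s, p : ℕ) : ℤ), (b : ℕ); 0, 1]),
    ⟨fun s S c D hc cS sS => ?_, fun s c c' M M' Q _ ι Ψ pl D hc hc' e q cd g₀ m => ?_⟩,
    fun c hc M q => ?_⟩
  · refine raw1 R (D := 1) (s := range (∏ p ∈ s, p)) (w := fun _ => 1)
      (A := fun b : ℕ => g * !![((∏ p ∈ s, p : ℕ) : ℤ), b; 0, 1]) odd_one (fun M q => q.1)
      (fun M q b _ => ⟨(mul_one M).symm ▸ cz hc q (n2 D b), n2 D b⟩)
      (fun M q => ⟨mul_ne_zero q.1 two_ne_zero, q.2.1.mul_right _, q.2.2.1.mul_right _,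
        q.2.2.2.1.mul_left (odd_of (sm_sq hc)),
        fun r k => sq_mul (D r k).1 Nat.prime_two (D r k).2.1 (q.2.2.2.2 r k)⟩)
      (fun M l q hl lS lM => ?_) fun M q => ⟨(hz D hc q).1, by simpa using (hz D hc q).2⟩
    have lc := (Nat.coprime_primes hl hc.1).2 fun e => lS (e ▸ cS)
    exact ⟨⟨mul_ne_zero q.1 hl.ne_zero, q.2.1.mul_right _, q.2.2.1.mul_right _, q.2.2.2.1.mul_left lc,
      fun r k => sq_mul (D r k).1 hl (fun e => lS (e ▸ sS k)) (q.2.2.2.2 r k)⟩,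
      hl.coprime_iff_not_dvd.1 ((one_mul (c * c)).symm ▸ lc.mul_right lc), hk X h p hl fun e => lM (e.trans q.2.2.1),
      fun b _ => nd D hl (fun k => lS (sS k)) b⟩
  · obtain ⟨q0, q1, q2, q3, q4⟩ := q
    have u : Aq n N ∅ c M := ⟨q0, q1, q2, q3.coprime_mul_right_right, by simp⟩
    have u' : Aq n N s c' M := ⟨q0, q1, q2, q3.coprime_mul_left_right, q4⟩
    have l : Hm M ≤ Hm M' := Hm_le (e ▸ dvd_mul_right _ _)
    obtain ⟨T, t⟩ := ex_tv (Hm_open q0) l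
    have t2 : 2 ^ (n + 2) ∣ M' := (Nat.Coprime.pow_left _ (Nat.prime_two.coprime_iff_not_dvd.2 fun k =>
      (D 2 (dx_dvd D Nat.prime_two k)).2.1 rfl)).dvd_of_dvd_mul_right (e ▸ q1)
    have z := cx X h p (N := N) (sm_sq hc') (sm_sq hc') q0 q1 q2 g2
    have M0 : 0 < M' := Nat.pos_of_ne_zero (left_ne_zero_of_mul (e ▸ q0))
    have f4 : 4 ∣ M' := (Dvd.intro_left _ (pow_add 2 n 2).symm).trans t2
    have nz := nz_odd M0 ((by norm_num : 2 ∣ 4).trans f4) (sm_sq hc') g2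
    have cy {c s} (hc : Sm N c) (q : Aq n N s c M) : Cyc M (pl.σ c) c :=
      fb_cyc (pl.ov c hc.1) (pl.fb c hc.1) (hc.1.coprime_iff_not_dvd.1 q.2.2.2.1.symm)
    have k := Pm.primL R (det R) (a := a) (φ := pl.σ) s.toList s.nodup_toList
      (e.trans (by rw [prod_toList])) z ⟨z.hc, z.hd, M0, f4, nz 0, nz 1⟩
      ((Dvd.intro _ (pow_add 2 n 2).symm).trans t2) dvd_rfl (fun r k => by
        rw [mem_toList] at k
        obtain ⟨a1, -, a2, -⟩ := D r k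
        exact ⟨a1, fun j => q4 r k (e ▸ sq r ▸ mul_dvd_mul j (dvd_prod_of_mem _ k)),
          (u'.2.2.2.1.mul_right u'.2.2.2.1).coprime_dvd_left (a2.trans q2),
          fun j => (Nat.prime_iff_prime_int.1 a1).not_dvd_one (g1 ▸ j), uk X h p a1 a2,
          fun j => fb_cyc (pl.ov r a1) (pl.fb r a1)⟩) t
    have fx {c s} (hc : Sm N c) (q : Aq n N s c M) :=
      op_sum (fun h a => Pm.fix_z R (det R) (cz hc q g2) (Ha_le q0 a)) T
    have := Pm.rel (ι := ι) (e := (kp a s : ℤ) * (sf c' (pl.σ c') * sf c' (pl.σ c')))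
      (e' := sf c (pl.σ c) * sf c (pl.σ c) * eu a pl.σ s.toList) cd (Hm_open q0) (Hm_open q0) (Ha_le q0)
      (Ha_le q0) l l (Y1 _ _ _ (cz hc u g2)) (hz D hc' u').1 t t (by
        rw [Y2 _ _ _ (cz hc u g2), (hz D hc' u').2, op_mul, op_int, fx hc u,
          smo R (cz hc u g2) (e0 ▸ sw_sl γ⁻¹) hc hc' (cy hc u) (cy hc' u'), ← fx hc' u', ← map_zsmul,
          op_mul _ (eu _ _ _)]
        rw [prod_map_toList, prod_toList] at k
        exact congrArg _ k) m (ch_rfl _) (ch_rfl _)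
    rw [smul_smul, smul_smul, map_mul, map_intCast, ev_sf, map_mul, ev_sf, ev_eu, prod_map_toList,
      mul_comm, ← mul_assoc, mul_comm (_ * _) (ι _ ^ 2), ← mul_assoc] at this
    rw [y0]
    exact this
  · beta_reduce
    rw [y0]
    subst e0
    exact kz_of X h p q.1 (Y3 _ _ _ (cz hc q g2))

end Vale.Agent.P014T.Ct
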