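import Vale.Agent.P014T.St
import Vale.Agent.P014T.Pp.St
import Vale.Agent.P014T.Ew.Dic
import Vale.Agent.P014T.Rc.St

/-! # P014T, block C-TOP: from the Euler system to the row `KATO` (words and rows; helper45) -/

set_option autoImplicit false
set_option linter.all false

open NumberField Matrix Filter PowerSeries Set
open scoped Classical MatrixGroups UpperHalfPlane

noncomputable section

namespace Vale.Agent.P014T.Ct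

open Vale.Agent.P022 (Qb GQ IsConj)
open Vale.Agent.P027M.S (Inert)
open Vale.Agent.P022D.W (dec)
open Vale.Agent.P022E.GW (Ov Fb)
open Vale.Agent.P022K.G2 (In)
open Vale.Agent.P004S (Pl)
open Vale.Agent.P004S.Ga (K)
open Vale.Agent.P004F (La Rj cj mj M2 sd hq)
open Vale.Agent.P004F.Pr (ac)
open Vale.Agent.P004F.Pat (U Sy)
open Vale.Agent.P027M.M (Mdl FF cv)
open P004M.TE (Pt ga mt al)
open P004N (RN)
open PadicInt (toZModPow toZMod)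
open Dr (Hm Ha Zn aa am Gr Raw Cd Ch cor Ug)
open Pq (Zq)
open Pp (Bs Tw)
open Top (El Pm Lg w0 nq cS sg)
open Bt (Z0 Gp)
open Wm (Fx)
open Lc (Lk)
open Ah (Ind)
open Kx.Tw (Tq tw co)
open Ew (cz ct rj)
open Rc (KZ rg Vol REC)
open Pu (ParY)
open Sg (sF)

/-! ## the Euler systems -/

/-- admissible conductors for the system which is primitive at the primes of `s` -/
def Aq (n N : ℕ) (s : Finset ℕ) (c M : ℕ) : Prop :=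
  M ≠ 0 ∧ 2 ^ (n + 2) ∣ M ∧ N ∣ M ∧ M.Coprime c ∧ ∀ p ∈ s, ¬ p ^ 2 ∣ M

/-- smoothing primes -/
def Sm (N c : ℕ) : Prop := c.Prime ∧ 3 < c ∧ c ≡ 1 [MOD N]

/-- odd primes which divide `N` exactly once -/
def Dx (N : ℕ) (s : Finset ℕ) : Prop := ∀ p ∈ s, p.Prime ∧ p ≠ 2 ∧ p ∣ N ∧ ¬ p ^ 2 ∣ N

/-- the smoothing factor -/
def sm {R : Type} [CommRing R] (Ψ : GQ →* R) (φ : GQ) (c : ℕ) : R := (c ^ 2 - c * Ψ φ⁻¹) ^ 2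

/-- the constant in the relation -/
def kp (a : ℕ → ℤ) (s : Finset ℕ) : ℤ := ∏ p ∈ s, (p - 1) * a p * p ^ 2

/-- families indexed by the primitive primes, the smoothing prime and the conductor -/
abbrev Fy (n : ℕ) : Type := Finset ℕ → ℕ → ℕ → GQ → Fin 2 → Zn n

/-- **the raw systems and the relation between them** -/
structure Zy {n : ℕ} (ρ : GQ →* M2 (Zn n)) (N : ℕ) (a : ℕ → ℤ) (y : Fy n) : Prop where
  raw : ∀ (s S : Finset ℕ) c, Dx N s → Sm N c → c ∈ S → s ⊆ S → Raw ρ S a (Aq n N s c) (y s c)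
  rel : ∀ (s : Finset ℕ) c c' M M' (R : Type) [CommRing R] (ι : Zn n →+* R) (Ψ : GQ →* R) (pl : Pl),
    Dx N s → Sm N c → Sm N c' → M = M' * ∏ p ∈ s, p → Aq n N s (c * c') M → Cd M' Ψ → ∀ g₀ ∈ Ha,
    Ch ⊤ (aa ρ ι Ψ)
      ((ι (ρ g₀ - 1).det ^ 2 * kp a s * sm Ψ (pl.σ c') c') • cor ρ ι Ψ (Hm M) (y ∅ c M))
      ((ι (ρ g₀ - 1).det ^ 2 * sm Ψ (pl.σ c) c * ∏ p ∈ s, (p - a p * Ψ (pl.σ p))) •
        cor ρ ι Ψ (Hm M) (y s c' M))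

/-- the unit system consists of symbols of Siegel units -/
def Zk (Kz : KZ) (X : Mdl) {A B : ℤ} (h : El A B) (x y : FF) (γ : SL(2, ℤ)) (N c : ℕ) {n : ℕ}
    (z : Fy n) : Prop := ∀ M, Aq n N ∅ c M →
  Kz X A B x y M n (sF c (rg M γ 0)) (sF c (rg M γ 1)) (cz (co (hq h) n) (z ∅ c M))

/-- the conductor of the bottom class -/
structure Lv (n N : ℕ) (S : Finset ℕ) (M : ℕ) : Prop where
  ne : M ≠ 0
  pf : M.primeFactors = S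
  two : 2 ^ (n + 2) ∣ M
  dv : N ∣ M
  sq : ∀ p : ℕ, p.Prime → p ≠ 2 → p ^ 2 ∣ M → p ^ 2 ∣ N

/-- the symbol has the smallest imaginary part up to an odd number -/
def Gam (N : ℕ) (I : ℍ → ℂ) (A B : ℤ) (γ : SL(2, ℤ)) : Prop :=
  ¬ (N : ℤ) ∣ γ 1 0 ∧ ¬ (N : ℤ) ∣ γ 1 1 ∧
    ∃ (v : ℝ) (k : ℤ), Vol (Es.LL I) v ∧ Odd k ∧ (Es.sy I γ).im * w0 A B = k * v

/-! ## the members of the family -/

/-- the local factors -/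
structure Lf (N : ℕ) (a : ℕ → ℤ) (D : ℕ) (b : Bs) : Prop where
  ne : N ≠ 0
  sqf : Squarefree D
  bad : ∀ p : ℕ, p.Prime → p ∣ N * D → p ∈ b.S
  cd : Cd D b.ε
  nd : ∀ p ∈ b.σ, ¬ p ∣ D ∧ ¬ p ^ 2 ∣ N ∧ (p ∣ N → a p ≠ 0)
  gd : ∀ l P, Ov l P → (l ∈ b.S → l ∈ b.σ ∧ ¬ l ∣ N) →
    (∀ i, Inert P i → b.r i = 1) ∧ ∀ φ, Fb l P φ → (b.r φ).trace = a l
  eE : ∀ p ∈ b.σ, b.E p = Polynomial.C (p : ℤ_[2]) -
    Polynomial.C (a p * b.ε (b.pl.σ p)) * Polynomial.X + if p ∣ N then 0 else Polynomial.X ^ 2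

/-- `S` contains all bad primes -/
def Bad (A B : ℤ) (N : ℕ) (a : ℕ → ℤ) (d : ℤ) (S : Finset ℕ) : Prop := ∀ p : ℕ, p.Prime →
  (p : ℤ) ∣ 2 * N * d * (4 * A ^ 3 + 27 * B ^ 2) ∨ al A B p ≠ a p → p ∈ S

/-- `b` belongs to the twist by `d` -/
structure Mb {A B : ℤ} (h : El A B) (N : ℕ) (a : ℕ → ℤ) (d : ℤ) (b : Bs) : Prop where
  lf : Lf N a d.natAbs b
  r : b.r = P004M.TE.mt (hq h)
  ε : ∀ g, b.ε g = sd d g
  ad : Top.Ad d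
  pos : 0 < d
  bad : Bad A B N a d b.S
  pv : ∃ i, IsUnit (b.gp i)

/-- the character modulo `2 ^ n` -/
def en (b : Bs) (n : ℕ) : GQ →* Zn n := (toZModPow n).toMonoidHom.comp b.ε

/-- the number which kills the obstruction to descend from `Ha` -/
def dl (b : Bs) (g₀ : GQ) : ℤ_[2] := (b.r g₀ - 1).det

/-- the value of the smoothing factor -/
def s0 (c : ℕ) : ℤ_[2] := (c ^ 2 - c) ^ 2

/-- the coboundary -/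
def db {R : Type} [CommRing R] (a : GQ → M2 R) (w : Fin 2 → R) (g : GQ) : Fin 2 → R := (a g - 1) *ᵥ w

/-- `x` is a framed cocycle in the bottom class -/
structure Xz (b : Bs) (g₀ : GQ) {n' n : ℕ} (f : Zn n' →+* Zn n) (M : ℕ) (y : GQ → Fin 2 → Zn n')
    (x : GQ → Fin 2 → Zn n) : Prop where
  mem : x ∈ Zq (Zn n) b.S (aa (b.ρ n') f (en b n)) b.c
  ch : Ch ⊤ (aa (b.ρ n') f (en b n)) x
    (toZModPow n (dl b g₀ ^ 2) • cor (b.ρ n') f (en b n) (Hm M) y)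

/-! ## towers -/

/-- a presentation of the framed cocycles -/
def Pr {R : Type} [CommRing R] (a : GQ → M2 R) (T : Finset ℕ) (c : GQ) {r : ℕ}
    (Q : Matrix (Fin r) (Fin (r + 2)) R) (u : GQ → Matrix (Fin 2) (Fin (r + 2)) R) : Prop :=
  ∀ (M : Type) [AddCommGroup M] [Module R M],
    BijOn (fun (v : Fin (r + 2) → M) g => ac (u g) v) {v | ac Q v = 0} (Zq M T a c)

/-- `w` is the column of `x` -/
def Cl {R : Type} [CommRing R] {r : ℕ} (Q : Matrix (Fin r) (Fin (r + 2)) R)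
    (u : GQ → Matrix (Fin 2) (Fin (r + 2)) R) (w : Fin (r + 2) → R) (x : GQ → Fin 2 → R) : Prop :=
  Q *ᵥ w = 0 ∧ ∀ g, u g *ᵥ w = x g

variable {b : Bs}

/-- the tower fits the smoothing prime, the local factors are bounded -/
structure Tx (t : Tw b) (c : ℕ) : Prop where
  tq : ∀ j, Mu.Tq (insert c b.S) (2 * j + 4) (t.c j) (t.e j)
  ne : ∀ j, t.q j ≠ c
  crd : ∀ j, (t.T j).card ≤ t.m
  gq : ∀ j, ∀ l ∈ t.T j, ∀ s : ℤ_[2], s ^ 2 = 1 → ¬ 2 ^ t.m ∣ (s • b.r (b.pl.σ l) - 1).det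

/-- no `μ`-invariant -/
def Mz (t : Tw b) : Prop := ∀ (r : ℕ) (Q : ∀ j, Matrix (Fin r) (Fin (r + 2)) (Rj (j + 1)))
  (u : ∀ j, GQ → Matrix (Fin 2) (Fin (r + 2)) (Rj (j + 1))),
  (∀ᶠ j in U, Pr (t.a j) (b.S ∪ t.T j) b.c (Q j) (u j)) → ∃ C : Matrix (Fin 2) (Fin (r + 2)) La,
    map toZMod (Ba.st finSumFinEquiv.symm (Sy.succ.um Q) C).det ≠ 0

/-- the product of the local factors at level `j` -/
def Ej (t : Tw b) (j : ℕ) : Rj (j + 1) := ∏ p ∈ b.σ, (b.E p).eval₂ (cj (j + 1))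
  (mj (j + 1) (1 + X) ^ (t.e j (b.pl.σ p)).val)

/-- the unit class at level `j` -/
def cu (t : Tw b) (j c M : ℕ) (y : Fy (t.N j)) : GQ → Fin 2 → Rj (j + 1) :=
  cor (b.ρ (t.N j)) (t.ι j) (t.Ψ j) (Hm (M * (t.c j * t.q j))) (y ∅ c (M * (t.c j * t.q j)))

/-- evaluation at `X = 0` modulo `2 ^ n` -/
def Ev {j n : ℕ} (p : Rj j →+* Zn n) : Prop := ∀ y : La, p (mj j y) = toZModPow n (constantCoeff y)

/-! ## the words of the end -/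

/-- the reciprocity laws (the first four fields of `Top.Zt`) -/
structure Zr {A B : ℤ} (h : El A B) (S : Finset ℕ) (c : GQ) (P : Ideal (𝓞 Qb)) (ι : Qb →+* ℂ_[2])
    (lg : Fx A B (dec P) →+ K) (σ : ℤ_[2]) (ρ : ℚ) (m n : ℕ) (z : GQ → Pt A B) : Prop where
  mem : z ∈ Z0 A B S c
  tor : 2 ^ n • z = 0
  r0 : ∃ u : ℤ_[2]ˣ, Top.Rc h P lg m n z ((u * σ : ℤ_[2]) * ρ)
  r1 : ρ = 0 → ∀ (l : ℕ) W χ, Rb.Lx l n W χ → l ∉ S → m < l → W (-1) = 0 → (∀ p ∈ S, W p = 0) →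
    ∃ (z₁ : GQ → Pt A B) (t : Pt A B) (j : Qb →+* ℂ) (x : Qb) (μ : K) (u : ℤ_[2]ˣ),
      Rb.Cn n z₁ ∧ 2 ^ n • t = 0 ∧ (∀ g ∈ In (insert l S : Finset ℕ), z₁ g = 0) ∧
      (∀ g k, z₁ (g * k) = z₁ g + ga g (z₁ k) + (χ g).val • ga g (nq A B l • z k + (ga k t - t))) ∧
      j x * w0 A B = Rk.Lw (al A B) (cS (insert l S) fun k => (W k).val) ∧
      ‖Ah.am μ - ι x‖ * 2 ^ n ≤ 2 ^ m ∧ Top.Rc h P lg m n z₁ ((u * σ : ℤ_[2]) * μ)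

/-- the numbers of the main conjecture -/
def Mc (A B : ℤ) (c : GQ) (T : Finset ℕ) (n : ℕ) (z : GQ → Pt A B) (β : ℤ_[2]) : Prop :=
  ∀ g, Gp A B c g → ∀ b j, b < j → j ≤ n → 4 ^ j ≤ 2 ^ b * sg g n j z →
    Top.cz A B T c n ≤ 4 ^ n * 2 ^ b ∧ (sg g n j z * Top.cz A B T c j : ℝ) = 16 ^ j * ‖β‖

/-! ## rows -/

/-- **Kato's classes** -/
def ZETA (Kz : KZ) : Prop := ∀ (X : Mdl) N G a A B w I (x y : FF)
  (h : ParY N a A B w I (cv x) (cv y)) (γ : SL(2, ℤ)) (n : ℕ), RN N G a → 0 < n →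
  ∃ z : Fy n, Zy (rj (hq h.disc) n) N a z ∧ ∀ c, Sm N c → Zk Kz X h.disc x y γ N c z

/-- the choice of the symbol -/
def GAM : Prop := ∀ N G a A B w I x y, RN N G a → ParY N a A B w I x y →
  (∃ γ, Gam N I A B γ) ∧ ∃ x' y' : FF, cv x' = x ∧ cv y' = y

/-- **the reciprocity laws for the bottom class** -/
def RR (Kz : KZ) : Prop := ∀ (X : Mdl) N G a A B w I (x y : FF)
  (h : ParY N a A B w I (cv x) (cv y)) γ (d A' B' : ℤ) (T : Tq d A B A' B') (h' : El A' B') (b : Bs)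
  (c : ℕ) (g₀ : GQ), RN N G a → Gam N I A B γ → Mb h.disc N a d b → Sm (N * d.natAbs) c →
  c ∉ b.S → g₀ ∈ Ha → ∃ (P : Ideal (𝓞 Qb)) (ι : Qb →+* ℂ_[2]) (lg : Fx A' B' (dec P) →+ K) (ρ : ℚ)
    (m₀ : ℕ), Ov 2 P ∧ Ind ι P ∧ Lk ι lg ∧ Rk.Lw (al A' B') (cS b.S 1) = ρ * w0 A' B' ∧
    ∀ m n n' (f : Zn n' →+* Zn n) M (z : Fy n') v, m₀ ≤ m → n ≤ n' → 0 < n' → Lv n' N b.S M →
      Zy (b.ρ n') N a z → Zk Kz X h.disc x y γ N c z → Xz b g₀ f M (z ∅ c M) v →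
      Zr h' b.S b.c P ι lg (2 * dl b g₀ ^ 2 * s0 c) ρ m n (cz (ct (hq h.disc) (tw T) n) (2 • v))

/-- the local factors from the compatibility -/
def LGB : Prop := ∀ (A B : ℤ) (h : El A B) N G a (d : ℤ) S c (gp v y : Fin 2 → ℤ_[2]) (pl : Pl),
  RN N G a → Top.Ad d → 0 < d → Lg h N a d → Pm S → Bad A B N a d S → IsConj c →
  1 + mt (hq h) c = vecMulVec gp v → y ⬝ᵥ gp = 1 → mt (hq h) c *ᵥ gp = gp →
  ∃ b : Bs, Mb h N a d b ∧ b.S = S ∧ b.c = c ∧ b.gp = gp ∧ b.pl = pl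

/-- the towers -/
def TWR : Prop := ∀ (A B : ℤ) (h : El A B) N a d (b : Bs) (c : ℕ) (N₀ : ℕ → ℕ), Mb h N a d b →
  c.Prime → c ∉ b.S → ∃ t : Tw b, (∀ j, N₀ j ≤ t.N j) ∧ Tx t c ∧ Mz t

/-- framed cocycles in the corestricted classes, for two congruent characters -/
def FRM : Prop := ∀ (n : ℕ) (ρ : GQ →* M2 (Zn n)) S a Ad y, Gr ρ S a Ad → Raw ρ S a Ad y →
  ∀ g₀ ∈ Ha, ∀ M (R : Type) [CommRing R] (ι : Zn n →+* R) (Ψ Ψ' : GQ →* R) (T : Finset ℕ) c (k : ℕ),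
    Ad M → 4 ∣ M → M.primeFactors ⊆ T → Cd M Ψ → Cd M Ψ' →
    (∀ g, Ψ g ^ 2 ^ k = 1 ∧ Ψ' g ^ 2 ^ k = 1 ∧ 2 ∣ Ψ g - Ψ' g) →
    (∀ v, (ρ g₀ - 1).det ^ 2 * v = 0 → ι v = 0) → IsConj c → (∀ l P, Ov l P → l ∉ T → Ug ρ l P) →
    ∃ x ∈ Zq R T (aa ρ ι Ψ) c, ∃ x' ∈ Zq R T (aa ρ ι Ψ') c,
      Ch ⊤ (aa ρ ι Ψ) x (cor ρ ι Ψ (Hm M) (y M)) ∧ Ch ⊤ (aa ρ ι Ψ') x' (cor ρ ι Ψ' (Hm M) (y M)) ∧
      ∀ g i, 2 ∣ x g i - x' g i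

/-- congruent presentations -/
def PRS : Prop := ∀ (b b' : Bs) (t : Tw b) (t' : Tw b'), ∀ D D' : ℕ, D ≠ 0 → D' ≠ 0 → Cd D b.ε →
  Cd D' b'.ε → b'.S = b.S → b'.c = b.c → b'.gp = b.gp →
  (∀ j, t'.T j = t.T j) → (∀ j g i k, 2 ∣ t.a j g i k - t'.a j g i k) →
  ∃ r₀ : ℕ, ∀ j, ∃ r ≤ r₀, ∃ (Q Q' : Matrix (Fin r) (Fin (r + 2)) (Rj (j + 1)))
    (u u' : GQ → Matrix (Fin 2) (Fin (r + 2)) (Rj (j + 1))),
    Pr (t.a j) (b.S ∪ t.T j) b.c Q u ∧ Pr (t'.a j) (b.S ∪ t.T j) b.c Q' u' ∧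
    (∀ i k, 2 ∣ Q i k - Q' i k) ∧
    db (t.a j) (cj _ ∘ b.gp) ∈ Zq (Rj (j + 1)) (b.S ∪ t.T j) (t.a j) b.c ∧
    db (t'.a j) (cj _ ∘ b.gp) ∈ Zq (Rj (j + 1)) (b.S ∪ t.T j) (t'.a j) b.c ∧
    ∀ x ∈ Zq (Rj (j + 1)) (b.S ∪ t.T j) (t.a j) b.c,
      ∀ x' ∈ Zq (Rj (j + 1)) (b.S ∪ t.T j) (t'.a j) b.c, (∀ g i, 2 ∣ x g i - x' g i) →
        ∃ w w', Cl Q u w x ∧ Cl Q' u' w' x' ∧ ∀ i, 2 ∣ w i - w' i

/-- **the unit class is the Euler factor times the primitive class** -/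
def RLC : Prop := ∀ (b : Bs) N a D (t : Tw b) (c : ℕ) (g₀ : GQ) (M : ℕ → ℕ) (y : ∀ j, Fy (t.N j)),
  Lf N a D b → Sm (N * D) c → c ∉ b.S → Tx t c → g₀ ∈ Ha → (∀ j, Lv (t.N j) N b.S (M j)) →
  (∀ j, Zy (b.ρ (t.N j)) N a (y j)) → ∃ (x : t.Es) (k : ℤ), k ≠ 0 ∧ ∀ j,
    ∃ x₂ ∈ Zq (Rj (j + 1)) (b.S ∪ t.T j) (t.a j) b.c, Ch ⊤ (t.a j) x₂ (2 • x.cl j) ∧
      ∀ x₁ ∈ Zq (Rj (j + 1)) (b.S ∪ t.T j) (t.a j) b.c, Ch ⊤ (t.a j) x₁ (cu t j c (M j) (y j)) →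
        ∃ l : Rj (j + 1), cj (j + 1) (4 * k * dl b g₀ ^ 2 * s0 c) • x₁ =
          (2 * sm (t.Ψ j) (b.pl.σ c) c * Ej t j) • x₂ + l • db (t.a j) (cj _ ∘ b.gp)

/-- descent to the bottom class -/
def DSC : Prop := ∀ (A B : ℤ) (h : El A B) N a (d A' B' : ℤ) (b : Bs) (t : Tw b) (c : ℕ) (g₀ : GQ),
  Tq d A B A' B' → Mb h N a d b → Sm (N * d.natAbs) c → c ∉ b.S → Tx t c → g₀ ∈ Ha → ∀ j,
  (∀ l ∈ t.T j, l.Prime ∧ l ∉ b.S ∧ ¬ (2 : ℤ) ^ t.m ∣ nq A' B' l) ∧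
  ∀ M (y : Fy (t.N j)) n (p : Rj (j + 1) →+* Zn n) v, Lv (t.N j) N b.S M →
    Zy (b.ρ (t.N j)) N a y → Ev p → Xz b g₀ (p.comp (t.ι j)) M (y ∅ c M) v →
    ∀ x₁ ∈ Zq (Rj (j + 1)) (b.S ∪ t.T j) (t.a j) b.c, Ch ⊤ (t.a j) x₁ (cu t j c M y) →
      ∃ (k : ℤ) (l : Zn n), Odd k ∧ (∏ q ∈ t.T j, nq A' B' q) • 2 • v =
        k • (fun g => p ∘ (cj (j + 1) (2 * dl b g₀ ^ 2) • x₁ g)) +
          l • db (fun g => (t.a j g).map p) (toZModPow n ∘ b.gp)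

/-- from matrices to points -/
def FIN : Prop := ∀ (A B : ℤ) (h : El A B) N a (d A' B' : ℤ) (T : Tq d A B A' B') (b : Bs)
  (S : Finset ℕ) (R : Type) [CommRing R] (α : GQ → M2 R) (r n : ℕ)
  (Q : Matrix (Fin r) (Fin (r + 2)) R) u (v w : Fin (r + 2) → R) (gp : Fin 2 → R) x
  (p : R →+* Zn n) (Q₀ : Matrix (Fin r) (Fin (r + 2)) ℤ_[2]) (v₀ w₀ : Fin (r + 2) → ℤ_[2])
  (β : ℤ_[2]) (k : ℤ) (l : Zn n), Mb h N a d b → Pr α S b.c Q u → Cl Q u v (db α gp) → Cl Q u w x →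
  (∀ g, (α g).map p = en b n g • b.ρ n g) → p ∘ gp = toZModPow n ∘ b.gp →
  Q.map p = Q₀.map (toZModPow n) → p ∘ v = toZModPow n ∘ v₀ → p ∘ w = toZModPow n ∘ w₀ →
  Q₀ *ᵥ v₀ = 0 → Q₀ *ᵥ w₀ = 0 →
  (∀ C, (C * Ba.cl v₀ w₀).det = β * (Ba.st finSumFinEquiv.symm Q₀ C).det) → Odd k →
  Mc A' B' b.c S n (cz (ct (hq h) (tw T) n) (k • (fun g => p ∘ x g) +
    l • db (fun g => (α g).map p) (toZModPow n ∘ b.gp))) β

end Vale.Agent.P014T.Ct
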