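import Vale.Agent.P014T.Ct.Kato
import Vale.Agent.P014T.Ct.Lam
import Vale.Agent.P014T.Ct.Lgb
import Vale.Agent.P014T.Ct.Twr
import Vale.Agent.P014T.Ct.Frm
import Vale.Agent.P014T.Ct.Prs
import Vale.Agent.P014T.Ct.Dsc
import Vale.Agent.P014T.Ct.Fin
import Vale.Agent.P014T.Ct.Ktw
import Vale.Agent.P014T.Ct.Rlc
import Vale.Agent.P014T.Ct.Zeta
import Vale.Agent.P014T.Zr.Top
import Vale.Agent.P014T.Rc.All
import Vale.Agent.P014T.Pp.All

/-! # P014T, block C-TOP: the closed rows -/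

set_option autoImplicit false
set_option linter.all false

namespace Vale.Agent.P014T.Ct

theorem rr_all : RR Ev.Kz := Zr.rr Rc.rec_all

theorem core_row (h : RLC) : CORE :=
  fun _ _ _ _ _ _ _ _ t x hr hS hp hc hg L L' s s' c0 g0 d0 mz hi _ _ lv zy =>
    core Pp.patq prs frm h t x hr hS hp hc hg L L' s s' c0 g0 d0 mz hi lv zy

theorem kato3 (z : ZETA Ev.Kz) (r : RLC) (k : RR Ev.Kz → FRM → DSC → FIN → KTW Ev.Kz) : Top.KATO :=
  kato z lgb twr (k rr_all frm dsc fin) (core_row r)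

/-- **Kato's Euler system** -/
theorem kato_all : Top.KATO := kato3 zeta rlc ktw

end Vale.Agent.P014T.Ct
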