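import Vale.Agent.P014T.Ct.St
import Vale.Agent.P014T.Pp.Rn0

/-! # P014T, block C-TOP: the auxiliary smoothing prime (helper86) -/

set_option autoImplicit false
set_option linter.all false

noncomputable section

namespace Vale.Agent.P014T.Ct

open Vale.Agent.P022 (Qb GQ)
open Vale.Agent.P004F (Rj cj)
open Dr (Hm)
open Pp

theorem crt {a b c : ℕ} (ha : a ≠ 0) (hb : b ≠ 0) (ab : a.Coprime b) (ca : c.Coprime a) (n : ℕ) :
    ∃ p, p.Prime ∧ n < p ∧ p ≡ c [MOD a] ∧ p ≡ 1 [MOD b] := by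
  obtain ⟨k, h1, h2⟩ := Nat.chineseRemainder ab c 1
  obtain ⟨p, h3, h4, h5⟩ := Nat.forall_exists_prime_gt_and_modEq n (mul_ne_zero ha hb)
    (Nat.Coprime.mul_right (h1.gcd_eq.trans ca) (h2.gcd_eq.trans b.gcd_one_left))
  exact ⟨p, h4, h3, (h5.of_mul_right b).trans h1, (h5.of_mul_left a).trans h2⟩

theorem Sm.left {N D c : ℕ} (s : Sm (N * D) c) : Sm N c := ⟨s.1, s.2.1, s.2.2.of_mul_right D⟩

theorem Sm.cop {N c : ℕ} (s : Sm N c) : c.Coprime N := s.2.2.gcd_eq.trans N.gcd_one_left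

/-- the Frobenius element of a prime which is `1` modulo `M` -/
theorem fb_hm (pl : P004S.Pl) {p M : ℕ} (pp : p.Prime) (h : p ≡ 1 [MOD M]) : pl.σ p ∈ Hm M :=
  fun z hz => by
  rw [Dr.root_cong (pl.ov p pp) (pp.coprime_iff_not_dvd.1 (h.gcd_eq.trans M.gcd_one_left))
    (pl.fb p pp) hz, pow_eq_pow_of_modEq h hz, pow_one]

/-- **a prime with a constant smoothing factor** -/
theorem ex_c {N D c : ℕ} {a : ℕ → ℤ} {b : Bs} (f : Lf N a D b) (t : Tw b) (s : Sm (N * D) c)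
    (j n : ℕ) : ∃ c', Sm (N * D) c' ∧ n < c' ∧
      sm (t.Ψ j) (b.pl.σ c') c' = cj (j + 1) (s0 c) := by
  have q := t.tq j
  obtain ⟨p, pp, lt, h1, h2⟩ := crt (a := 2 ^ (j + 1) * (N * D)) (c := c)
    (mul_ne_zero (pow_ne_zero _ two_ne_zero) (mul_ne_zero f.ne f.sqf.ne_zero)) q.sq.ne_zero
    (Nat.Coprime.symm <| Nat.coprime_of_dvd fun l pl k k' => (q.cy l pl k).2 (by
      rcases pl.dvd_mul.1 k' with k' | k'
      exacts [(Nat.prime_dvd_prime_iff_eq pl Nat.prime_two).1 (pl.dvd_of_dvd_pow k') ▸ b.two,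
        f.bad l pl k']))
    (((Nat.coprime_primes s.1 Nat.prime_two).2 (by have := s.2.1; omega)).pow_right _ |>.mul_right
      s.cop) (max n 3)
  have h3 := (h1.of_mul_left _).trans s.2.2
  refine ⟨p, ⟨pp, (le_max_right _ _).trans_lt lt, h3⟩, (le_max_left _ _).trans_lt lt, ?_⟩
  have e : t.Ψ j (b.pl.σ p)⁻¹ = 1 := by
    rw [t.hΨ, f.cd _ (inv_mem (fb_hm b.pl pp (h3.of_mul_left N))),
      q.ker _ (inv_mem (fb_hm b.pl pp h2)), map_one, ZMod.val_zero, pow_zero, mul_one]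
  have e' : (p : Rj (j + 1)) = c := by
    obtain ⟨ι⟩ : Nonempty (Dr.Zn (j + 1) →+* Rj (j + 1)) := ex_io Rg.two_mq
    rw [← map_natCast ι, (ZMod.natCast_eq_natCast_iff _ _ _).2 (h1.of_mul_right _), map_natCast]
  rw [sm, s0, e, e', mul_one, map_pow, map_sub, map_pow, map_natCast]

end Vale.Agent.P014T.Ct
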