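import Vale.Agent.P014T.Ct.St
import Vale.Agent.P014T.Rc.Even
import Vale.Agent.P014T.Pu.Hk

/-! # P014T, block C-TOP: the choice of the symbol -/

set_option autoImplicit false
set_option linter.all false

namespace Vale.Agent.P014T.Ct

open Vale.Agent.P027M.M (Mdl mkF)

theorem gam : GAM := fun _ _ _ _ _ _ _ x y r p =>
  let ⟨γ, k, v, g0, g1, o, _, vol, e⟩ := Rc.gam r p
  ⟨⟨γ, g0, g1, v, k, vol, o, e⟩, mkF x (Pu.Rq.fs r.pos p.xm p.xq), mkF y (Pu.Rq.fs r.pos p.ym p.yq),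
    rfl, rfl⟩

theorem ex_mdl : Nonempty Mdl := P027M.M.mdl

end Vale.Agent.P014T.Ct
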