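import Vale.Agent.P014T.Ct.St

/-! # P014T, block C-TOP: the interface between the two halves of the glue (helper45) -/

set_option autoImplicit false
set_option linter.all false

open Matrix
open scoped Classical MatrixGroups

noncomputable section

namespace Vale.Agent.P014T.Ct

open Vale.Agent.P022 (GQ)
open Vale.Agent.P004F (Rj cj)
open Vale.Agent.P027M.M (Mdl FF cv)
open P004N (RN)
open PadicInt (toZModPow)
open Dr (Ha Zn Ch)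
open Pp (Bs Tw)
open Top (El Kt)
open Kx.Tw (Tq)
open Rc (KZ)
open Pu (ParY)

/-- the output of the Iwasawa side for one twist -/
def Co1 {b : Bs} (t : Tw b) (c : ℕ) (M : ℕ → ℕ) (y : ∀ j, Fy (t.N j)) (α : ℤ_[2]) : Prop :=
  ∃ (r : ℕ) (Q₀ : Matrix (Fin r) (Fin (r + 2)) ℤ_[2]) (v₀ w₀ : Fin (r + 2) → ℤ_[2]),
    Q₀ *ᵥ v₀ = 0 ∧ Q₀ *ᵥ w₀ = 0 ∧
    (∀ C, (C * Ba.cl v₀ w₀).det = s0 c * α * (Ba.st finSumFinEquiv.symm Q₀ C).det) ∧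
    ∀ n, ∃ (j : ℕ) (p : Rj (j + 1) →+* Zn n) (Q : Matrix (Fin r) (Fin (r + 2)) (Rj (j + 1)))
      (u : GQ → Matrix (Fin 2) (Fin (r + 2)) (Rj (j + 1))) (v w : Fin (r + 2) → Rj (j + 1))
      (x : GQ → Fin 2 → Rj (j + 1)), n ≤ j + 1 ∧ Ev p ∧ Pr (t.a j) (b.S ∪ t.T j) b.c Q u ∧
      Cl Q u v (db (t.a j) (cj _ ∘ b.gp)) ∧ Cl Q u w x ∧ Ch ⊤ (t.a j) x (cu t j c (M j) (y j)) ∧
      Q.map p = Q₀.map (toZModPow n) ∧ p ∘ v = toZModPow n ∘ v₀ ∧ p ∘ w = toZModPow n ∘ w₀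

/-- the levels are large enough -/
def Hi {b : Bs} (t : Tw b) (g₀ : GQ) : Prop :=
  ∀ j v, (b.ρ (t.N j) g₀ - 1).det ^ 2 * v = 0 → t.ι j v = 0

/-- zeta elements for one twist -/
def KTW (Kz : KZ) : Prop := ∀ (X : Mdl) N G a A B w I (x y : FF)
  (h : ParY N a A B w I (cv x) (cv y)) γ (d A' B' : ℤ) (h' : El A' B') (b : Bs) (c : ℕ) (g₀ : GQ)
  (t : Tw b) (M : ℕ → ℕ) (z : ∀ j, Fy (t.N j)) (α : ℤ_[2]), RN N G a → Gam N I A B γ →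
  Tq d A B A' B' → Mb h.disc N a d b → Sm (N * d.natAbs) c → c ∉ b.S → g₀ ∈ Ha → dl b g₀ ≠ 0 →
  Tx t c → Hi t g₀ → (∀ j, Lv (t.N j) N b.S (M j)) → (∀ j, Zy (b.ρ (t.N j)) N a (z j)) →
  (∀ j, Zk Kz X h.disc x y γ N c (z j)) → Co1 t c M z α → Kt h' b.S α

end Vale.Agent.P014T.Ct
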