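import Vale.Agent.P014T.Top
import Vale.Agent.P014T.Ct.St2
import Vale.Agent.P014T.Ct.Gl0
import Vale.Agent.P014T.Ct.Gam
import Vale.Agent.P014T.Pg.Qd
import Vale.Agent.P014T.Tv.Md
import Vale.Agent.P004S.Gal1

/-! # P014T, block C-TOP: the row `KATO` from the rows of the block -/

set_option autoImplicit false
set_option linter.all false

open Matrix
open scoped Classical

noncomputable section

namespace Vale.Agent.P014T.Ct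

open Vale.Agent.P022 (GQ)
open Vale.Agent.P004F (hq Rj)
open P004M.TE (mt al conj_sq det_conj)
open Dr (Ha)
open Pp (Bs Tw)
open Top (Pm)
open Rc (KZ)

/-- the Iwasawa side for a pair of twists -/
def CORE : Prop := ∀ (b b' : Bs) N a D D' c g₀ (t : Tw b) (x : Tx t c) (hr : b'.r = b.r)
  (hS : b'.S = b.S) (hp : b'.pl = b.pl), b'.c = b.c → b'.gp = b.gp → Lf N a D b → Lf N a D' b' →
  Sm (N * D) c → Sm (N * D') c → c ∉ b.S → g₀ ∈ Ha → dl b g₀ ≠ 0 → Mz t → Hi t g₀ →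
  ∀ M (y : ∀ j, Fy (t.N j)), (∀ j, Lv (t.N j) N b.S (M j)) → (∀ j, Zy (b.ρ (t.N j)) N a (y j)) →
    ∃ α α', Co1 t c M y α ∧ Co1 (G0.re t x hr hS hp) c M y α' ∧ (IsUnit α ↔ IsUnit α')

theorem ex_S {A B d : ℤ} {N : ℕ} {a : ℕ → ℤ} (h : Top.El A B) (n0 : N ≠ 0) (d0 : d ≠ 0)
    (f : {p : ℕ | p.Prime ∧ al A B p ≠ a p}.Finite) {S₀ : Finset ℕ} (p0 : Pm S₀) :
    ∃ S, S₀ ⊆ S ∧ Pm S ∧ Bad A B N a 1 S ∧ Bad A B N a d S := by
  have k : (2 * N * d * (4 * A ^ 3 + 27 * B ^ 2)).natAbs ≠ 0 := by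
    rw [Int.natAbs_ne_zero]
    positivity
  have bd : Bad A B N a d (S₀ ∪ ((2 * N * d * (4 * A ^ 3 + 27 * B ^ 2)).natAbs.primeFactors ∪
      f.toFinset)) := fun p hp m => Finset.mem_union_right _ (Finset.mem_union.2
    (m.imp (fun m => Nat.mem_primeFactors.2 ⟨hp, Int.natCast_dvd.1 m, k⟩)
      fun m => f.mem_toFinset.2 ⟨hp, m⟩))
  exact ⟨_, Finset.subset_union_left, p0.union (Top.Pm.union (fun p => Nat.prime_of_mem_primeFactors)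
    fun p m => (f.mem_toFinset.1 m).1), fun p hp m => bd p hp
      (m.imp_left fun m => m.trans ⟨d, by ring⟩), bd⟩

theorem hi_of {b : Bs} {g₀ : GQ} (h : dl b g₀ ≠ 0) :
    ∃ N₀ : ℕ → ℕ, ∀ t : Tw b, (∀ j, N₀ j ≤ t.N j) → Hi t g₀ :=
  let ⟨v, hv⟩ := G0.ann h
  ⟨fun j => j + 1 + v, fun t le j x e =>
    hv _ (j + 1) _ (t.ι j) (le j) Pp.Rg.two_mq x (G0.rho_det b _ g₀ ▸ e)⟩

/-- **Kato's Euler system** -/
theorem kato {Kz : KZ} (h1 : ZETA Kz) (h2 : LGB) (h3 : TWR) (h4 : KTW Kz) (h5 : CORE) :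
    Top.KATO := by
  intro N G a A B w I x y h rn d h' S₀ ad d0 p0 l1 ld
  obtain ⟨⟨γ, hγ⟩, x, y, rfl, rfl⟩ := gam N G a A B w I x y rn h
  obtain ⟨X⟩ := ex_mdl
  obtain ⟨S, sub, pS, b1, bd⟩ := ex_S h.disc rn.pos.ne' ad.ne h.mat p0
  obtain ⟨c, hc⟩ := Tv.ex_cj
  obtain ⟨gp, v, u, e1, e2, e3⟩ := Pg.ex_gp (C := mt (hq h.disc) c)
    (by rw [← map_mul, conj_sq (hq h.disc) hc, map_one]) (det_conj _ hc)
  obtain ⟨pl⟩ := P004S.pl_ex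
  obtain ⟨g₀, ha, -, δ, dδ, -, -, -, δ0, -⟩ := Pg.ex_u (hq h.disc) 0
  obtain ⟨b, m, rfl, rfl, rfl, rfl⟩ := h2 A B h.disc N G a 1 S c gp v u pl rn Top.ad_one one_pos
    l1 pS b1 hc e1 e2 e3
  obtain ⟨b', m', hS, hc', hg, hp⟩ := h2 A B h.disc N G a d _ _ _ v u b.pl rn ad d0 ld pS bd hc
    e1 e2 e3
  have hr : b'.r = b.r := m'.r.trans m.r.symm
  have n0 : dl b g₀ ≠ 0 := by rwa [dl, m.r, dδ]
  have n0' : dl b' g₀ ≠ 0 := by rwa [dl, m'.r, dδ]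
  obtain ⟨c, s', c0⟩ := G0.ex_sm (mul_ne_zero rn.pos.ne' (Int.natAbs_ne_zero.2 ad.ne)) b.S
  have s : Sm (N * (1 : ℤ).natAbs) c := G0.Sm.of s' (mul_dvd_mul_left _ (one_dvd _))
  obtain ⟨N₀, hi⟩ := hi_of n0
  obtain ⟨t, le, tx, mz⟩ := h3 A B h.disc N a 1 b c N₀ m s.1 c0
  have hi := hi t le
  choose M lv using fun j => G0.ex_lv rn.pos.ne' pS b.two
    (fun p hp k => m.lf.bad p hp (k.mul_right _)) (t.N j)
  choose z zy zk using fun j => h1 X N G a A B w I x y h γ (t.N j) rn (j.succ_pos.trans_le (t.le j))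
  have zy : ∀ j, Zy (b.ρ (t.N j)) N a (z j) := fun j => by rw [Bs.ρ, m.r]; exact zy j
  have zk := fun j => zk j c (G0.Sm.of s' (dvd_mul_right _ _))
  obtain ⟨α, α', k, k', e⟩ := h5 b b' N a _ _ c g₀ t tx hr hS hp hc' hg m.lf m'.lf s s' c0 ha n0 mz
    hi M z lv zy
  refine ⟨_, α, α', sub, pS, h4 X N G a A B w I x y h γ 1 A B h.disc b c g₀ t M z α rn hγ
    ⟨one_ne_zero, by ring, by ring⟩ m s c0 ha n0 tx hi lv zy zk k, hS ▸ h4 X N G a A B w I x y h γ d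
    _ _ h' b' c g₀ (G0.re t tx hr hS hp) M z α' rn hγ (Kx.Tw.tq ad.ne A B) m' s' (hS ▸ c0) ha n0'
    (G0.re_tx t tx hr hS hp) (fun j => ?_) (hS ▸ lv) (fun j => ?_) zk k', e⟩
  · rw [G0.rho_eq hr]
    exact hi j
  · rw [G0.rho_eq hr]
    exact zy j

end Vale.Agent.P014T.Ct
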