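import Vale.Agent.P014T.Ct.Bas

/-! # P014T, block C-TOP: the arithmetic of row `RLC` (helper45) -/

set_option autoImplicit false
set_option linter.all false

open Matrix PowerSeries
open scoped Classical

noncomputable section

namespace Vale.Agent.P014T.Ct.R0

open Vale.Agent.P022 (Qb GQ)
open Vale.Agent.P004F (Rj cj mj)
open Dr (Hm Zn Cd)
open Pp (Bs Tw)

variable {N D c : ℕ} {a : ℕ → ℤ} {b : Bs}

/-- a prime with prescribed residues -/
theorem ex_pr {m k : ℕ} (m0 : m ≠ 0) (k0 : k ≠ 0) (cm : c.Coprime m) (mk : m.Coprime k) (B : ℕ) :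
    ∃ c' : ℕ, c'.Prime ∧ B < c' ∧ c' ≡ c [MOD m] ∧ c' ≡ 1 [MOD k] := by
  obtain ⟨x, h1, h2⟩ := Nat.chineseRemainder mk c 1
  obtain ⟨p, p1, p2, p3⟩ := Nat.forall_exists_prime_gt_and_modEq B (mul_ne_zero m0 k0)
    (a := x) (Nat.Coprime.mul_right (by rw [Nat.Coprime, h1.gcd_eq]; exact cm)
      (by rw [Nat.Coprime, h2.gcd_eq]; exact Nat.gcd_one_left _))
  exact ⟨p, p2, p1, (p3.of_mul_right _).trans h1, (p3.of_mul_left _).trans h2⟩

theorem sm_cop (h : Sm N c) : c.Coprime N := by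
  rw [Nat.Coprime, h.2.2.gcd_eq]
  exact Nat.gcd_one_left _

variable (t : Tw b) (j : ℕ)

theorem two_N : (2 : Rj (j + 1)) ^ t.N j = 0 := by
  simpa only [map_zero, Nat.cast_pow, Nat.cast_ofNat, map_pow, map_ofNat] using
    congrArg (t.ι j) (ZMod.natCast_self (2 ^ t.N j))

theorem cop_c (L : Lf N a D b) : (2 ^ t.N j * (N * D)).Coprime (t.c j) :=
  Nat.Coprime.symm (Nat.coprime_of_dvd fun l p d e => ((t.tq j).cy l p d).2
    ((p.dvd_mul.1 e).elim (fun e => (Nat.prime_dvd_prime_iff_eq p Nat.prime_two).1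
      (p.dvd_of_dvd_pow e) ▸ b.two) (L.bad l p)))

/-- **the second smoothing prime** -/
theorem ex_c (L : Lf N a D b) (s : Sm (N * D) c) (B : ℕ) : ∃ c' : ℕ, B < c' ∧ Sm (N * D) c' ∧
    sm (t.Ψ j) (b.pl.σ c') c' = cj (j + 1) (s0 c) := by
  have c0 := (t.tq j).sq.ne_zero
  obtain ⟨p, p1, p2, p3, p4⟩ := ex_pr (c := c) (mul_ne_zero (pow_ne_zero (t.N j) two_ne_zero)
    (mul_ne_zero L.ne L.sqf.ne_zero)) c0 (Nat.Coprime.mul_right (Nat.Coprime.pow_right _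
      ((Nat.coprime_primes s.1 Nat.prime_two).2 (by have := s.2.1; omega))) (sm_cop s))
    (cop_c t j L) (B + 3 + t.c j)
  have s' : Sm (N * D) p := ⟨p1, by omega, (p3.of_mul_left _).trans s.2.2⟩
  have e : t.e j (b.pl.σ p) = 0 := (t.tq j).ker _ fun z hz => (Dr.root_cong (b.pl.ov p p1)
    (Nat.not_dvd_of_pos_of_lt (Nat.pos_of_ne_zero c0) (by omega)) (b.pl.fb p p1) hz).trans (by
      rw [pow_eq_pow_of_modEq p4 hz, pow_one])
  have e1 : t.Ψ j (b.pl.σ p) = 1 := by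
    rw [t.hΨ, e, B0.eps_sm L s', map_one, ZMod.val_zero, pow_zero, mul_one]
  have e2 : t.Ψ j (b.pl.σ p)⁻¹ = 1 := by
    rw [← one_mul (t.Ψ j _), ← e1, ← map_mul, mul_inv_cancel, map_one, e1]
  have e3 : (p : Rj (j + 1)) = c := by
    rw [← map_natCast (t.ι j), ← map_natCast (t.ι j),
      (ZMod.natCast_eq_natCast_iff _ _ _).2 (p3.of_mul_right _)]
  refine ⟨p, by omega, s', ?_⟩
  rw [sm, e2, e3, s0]
  simp

/-- the local factors at level `j` -/
theorem ej_split (L : Lf N a D b) : Ej t j =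
    (∏ p ∈ b.σ.filter (· ∣ N), ((p : Rj (j + 1)) - a p * t.Ψ j (b.pl.σ p))) *
      ∏ p ∈ b.σ.filter (¬ · ∣ N), ((p : Rj (j + 1)) - a p * t.Ψ j (b.pl.σ p) +
        t.Ψ j (b.pl.σ p) ^ 2) := by
  rw [Ej, ← Finset.prod_filter_mul_prod_filter_not b.σ (· ∣ N)]
  congr 1 <;> refine Finset.prod_congr rfl fun p m => ?_ <;> rw [Finset.mem_filter] at m
  · rw [L.eE p m.1, if_pos m.2, t.hΨ]
    simp [mul_assoc, -map_intCast, map_intCast (cj _), -eq_intCast]
  · rw [L.eE p m.1, if_neg m.2, t.hΨ, mul_pow, ← map_pow (cj _) (b.ε _), b.sq]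
    simp [mul_assoc, -map_intCast, map_intCast (cj _), -eq_intCast]

end Vale.Agent.P014T.Ct.R0
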