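import Vale.Agent.P014T.Ct.St
import Vale.Agent.P014T.Nr.Ins
import Vale.Agent.P014T.Nr.Kat
import Vale.Agent.P014T.Pm.Rel
import Vale.Agent.P014T.Ev.Unp
import Vale.Agent.P014T.Ev.Kz

/-! # P014T, block C-TOP: the universal point satisfies the standing hypotheses (helper38) -/

set_option autoImplicit false
set_option linter.all false

open CongruenceSubgroup Matrix Finset
open scoped MatrixGroups Classical UpperHalfPlane

noncomputable section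

namespace Vale.Agent.P014T.Ct.Zx

open Vale.Agent.P022 (Qb GQ)
open P027M.M (Mdl FF cv M2)
open P004N (RN)
open P004F (hq)
open Dr (Hm Co Zn)
open Nr
open Ew (rj cz)
open Kx.Tw (co)
open Ts (Pm Ep)
open Uy (Cu Zf)
open Ev (zt)
open Pu (ParY)
open Sg (sF Nz)

variable {A B : ℤ} (X : Mdl) (hD : 4 * (A : ℚ) ^ 3 + 27 * (B : ℚ) ^ 2 ≠ 0) (n : ℕ)

/-- the coordinates -/
def ec : (Fin 2 → Zn n) →+ Ep Qb A B := (co hD n : _ →+ P004M.TE.Pt A B)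

theorem crd : Crd (2 ^ n) (rj hD n) (ec hD n) :=
  have h := Ew.xy_co hD n
  ⟨h.inj, Ew.e_tor _, h.ex, fun g v => (h.act g v).trans (Uy.gE_ea _)⟩

theorem zt_prim : IsPrimitiveRoot (zt n) (2 ^ n) := IsPrimitiveRoot.coe_units_iff.1 (Sy.ex_prim' n)

/-- **the classes of symbols** -/
def ZK : Subgroup SL(2, ℤ) → Pm FF A B → FF → FF → Nr.Cl (rj hD n) :=
  ZZ X hD (2 ^ n) (zt n) (rj hD n) (ec hD n)

theorem ruk : Ru X (2 ^ n) (Cu hD) (sg (rj hD n)) (ZK X hD n) :=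
  ru (crd hD n) (by positivity) (zt_prim n) (Uy.dv_two hD n)

variable {X hD n} {ξ : Pm FF A B} {N c d L k : ℕ} {Y : M2}

theorem ex0 (x : Cx X (2 ^ n) (Cu hD) ξ N c d L Y) :
    ∃ y, Co (Hm L) (rj hD n) y ∧ cl _ y = ZL (ZK X hD n) ξ c d L Y ∧
      Zf X hD (Gamma L) (Hm L) ξ (2 ^ n) (zt n) (sF c (vL L (Y 0))) (sF d (vL L (Y 1)))
        (cz (co hD n) y) :=
  ext0 (crd hD n) (by positivity) (zt_prim n) (Uy.dv_two hD n) x

theorem ex1 (x : Cx X (2 ^ n) (Cu hD) ξ N c d (L * k) Y) (md : 2 ^ n ∣ L) (kd : ∀ i, (k : ℤ) ∣ Y i 0) :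
    ∃ y, Co (Hm L) (rj hD n) y ∧ cl _ y = ZL (ZK X hD n) ξ c d (L * k) Y :=
  ext1 (crd hD n) (by positivity) (zt_prim n) (Uy.dv_two hD n) x md kd

theorem sm_sq (h : Sm N c) : c ^ 2 % 24 = 1 := by
  have a : ¬ 2 ∣ c := fun e => by have := (Nat.prime_dvd_prime_iff_eq Nat.prime_two h.1).1 e; have := h.2.1; omega
  have b : ¬ 3 ∣ c := fun e => by have := (Nat.prime_dvd_prime_iff_eq Nat.prime_three h.1).1 e; have := h.2.1; omega
  rw [Nat.pow_mod]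
  have : c % 24 < 24 := Nat.mod_lt _ (by norm_num)
  generalize e : c % 24 = r at this
  interval_cases r <;> omega

theorem nz_odd (L0 : 0 < L) (h : 2 ∣ L) (hc : c ^ 2 % 24 = 1) (o : ¬ (2 : ℤ) ∣ Y.det) (i : Fin 2) :
    Nz c (vL L (Y i)) := (nz_iff L0).2 fun f => o (by
  have k j : (2 : ℤ) ∣ Y i j := (Nat.isCoprime_iff_coprime.2 (odd_of hc)).dvd_of_dvd_mul_left
    ((Int.natCast_dvd_natCast.2 h).trans (f j))
  rw [det_fin_two]
  revert k i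
  exact Fin.forall_fin_two.2 ⟨fun _ k => ((k 0).mul_right _).sub ((k 1).mul_right _),
    fun _ k => ((k 1).mul_left _).sub ((k 0).mul_left _)⟩)

theorem rg_eq (L : ℕ) (γ : SL(2, ℤ)) (i : Fin 2) : Rc.rg L γ i = vL L (((γ⁻¹ : SL(2, ℤ)) : M2) i) := rfl

theorem pa_eq {Z : M2} {u : 0 < Y.det} (v : 0 < Z.det) (e : Y = Z) :
    pA X Z v • ξ = Pu.pq X Y u ξ := by
  subst e
  rfl

variable {G I : ℍ → ℂ} {a : ℕ → ℤ} {w l : ℕ} {x y : FF} (h : RN N G a)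

include h in
theorem a_sq {s : Finset ℕ} (D : Dx N s) : ∀ p ∈ s, a p ^ 2 = 1 := fun p m =>
  (P004N.H461.pfCf N G a h).bad1 p (D p m).1 (D p m).2.2.1 (D p m).2.2.2

variable (p : ParY N a A B w I (cv x) (cv y)) (X)

theorem hk (hl : l.Prime) (k : ¬ l ∣ N) : Hk X (p.toPw.xi h) l (a l) := fun u v => by
  rw [← p.toPw.heckeT h X hl k (one_mem _), Fintype.sum_option, add_comm, sum_range]
  exact congrArg₂ _ (pa_eq v (by simp [P022.H231.L3.al])) (sum_congr rfl fun j _ => pa_eq (u j) (by simp [P022.H231.L3.al]))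

theorem uk (hl : l.Prime) (k : l ∣ N) : Pm.Uk X (p.toPw.xi h) l (a l) := fun u => by
  rw [← p.toPw.heckeU h X hl k, sum_range]
  exact sum_congr rfl fun j _ => pa_eq (u j) (by simp [P022.H231.L3.al])

theorem cx (hc : c ^ 2 % 24 = 1) (hd : d ^ 2 % 24 = 1) (L0 : L ≠ 0) (t : 2 ^ (n + 2) ∣ L) (nd : N ∣ L)
    (o : ¬ (2 : ℤ) ∣ Y.det) : Cx X (2 ^ n) (Cu (hq p.disc)) (p.toPw.xi h) N c d L Y :=
  have L0 := Nat.pos_of_ne_zero L0
  have f : 4 ∣ L := (Dvd.intro_left _ (pow_add 2 n 2).symm).trans t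
  have u := fun c => nz_odd (Y := Y) (c := c) L0 ((by norm_num : 2 ∣ 4).trans f)
  ⟨hc, hd, L0, f, (Dvd.intro _ (pow_add 2 n 2).symm).trans t, nd, Uy.cu_xi h p,
    fun _ m => p.toPw.pg h X m, p.toPw.gal h X, u c hc o 0, u d hd o 1⟩

theorem kz_of {u v : FF} {z} (L0 : L ≠ 0)
    (Z : Zf X (hq p.disc) (Gamma L) (Hm L) (p.toPw.xi h) (2 ^ n) (zt n) u v z) :
    Ev.Kz X A B x y L n u v z := fun _ _ _ _ _ _ nn s ex ey eu ev => Ev.unp L0 s Z nn ex ey eu ev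

/-- **the unit class** -/
theorem unit (γ : SL(2, ℤ)) (hc : Sm N c) (q : Aq n N ∅ c L) :
    ∃ z, Co (Hm L) (rj (hq p.disc) n) z ∧
      cl _ z = ZL (ZK X (hq p.disc) n) (p.toPw.xi h) c c L (γ⁻¹ : SL(2, ℤ)) ∧
      Ev.Kz X A B x y L n (sF c (Rc.rg L γ 0)) (sF c (Rc.rg L γ 1)) (cz (co (hq p.disc) n) z) :=
  let ⟨z, a, b, e⟩ := ex0 (cx X h p (Y := (γ⁻¹ : SL(2, ℤ))) (sm_sq hc) (sm_sq hc) q.1 q.2.1
    q.2.2.1 (by rw [Matrix.SpecialLinearGroup.det_coe]; decide))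
  ⟨z, a, b, kz_of X h p q.1 e⟩

end Vale.Agent.P014T.Ct.Zx
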