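import Vale.Agent.P014T.Ct.St
import Vale.Agent.P014T.Pm.Rel
import Vale.Agent.P014T.Nr.Smo
import Vale.Agent.P014T.Nr.Odd

/-! # P014T, block C-TOP: the raw systems from the rules (helper62) -/

set_option autoImplicit false
set_option linter.all false

open UpperHalfPlane CongruenceSubgroup Matrix Finset NumberField
open scoped MatrixGroups

noncomputable section

namespace Vale.Agent.P014T.Ct.Zz

open Vale.Agent.P022 H218.L3 H231.L3 P027M.M P027M.M.Dp P022K.QT.Cu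
open Dr (Hm Ha Tv Hm_le Ha_le Hm_open Zn Co Ch Cd Raw aa cor ch_iff nm)
open Nr (Au Ru Cx Hk ZL pS gA vL sg cl sg_cl cl_eq ex_tv d2 smo1 smo2 sw_sl)
open Pm (Uk ZP Gz op op_of op_int ev_of eu ev_eu primL rel_nm nm_ch tv_one cyc_fb fix_z s_comm)

variable {X : Mdl} {Ξ : Type} [AddCommGroup Ξ] [DistribMulAction Au Ξ] {Cu : AddSubgroup Ξ} {ξ : Ξ}
  {n N c M p : ℕ} {ρ : GQ →* P004F.M2 (Zn n)} {Z : Subgroup SL(2, ℤ) → Ξ → FF → FF → Nr.Cl ρ}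
  {a : ℕ → ℤ} {s : Finset ℕ} {H : Subgroup GQ} {A : M2}

theorem co_sum {k : ℕ} {y : ℕ → GQ → Fin 2 → Zn n} (h : ∀ b, Co H ρ (y b)) :
    Co H ρ (∑ b ∈ range k, y b) := by
  choose W w1 w2 using fun b => (h b).lc
  refine ⟨fun g m g' m' => ?_, ⨅ b ∈ range k, W b, ?_, fun w m m' => ?_⟩
  · simp only [Finset.sum_apply, fun b => (h b).coc g m g' m', sum_add_distrib, mulVec_sum]
  · simpa using isOpen_biInter_finset fun b (_ : b ∈ range k) => w1 b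
  · rw [Finset.sum_apply, sum_eq_zero fun b e => w2 b w (Subgroup.mem_iInf.1
      (Subgroup.mem_iInf.1 m b) e) m']

theorem c24 (h : Sm N c) : c ^ 2 % 24 = 1 := by
  have a := (h.1.dvd_iff_eq (a := 2) (by decide)).not.2 (by have := h.2.1; omega)
  have b := (h.1.dvd_iff_eq (a := 3) (by decide)).not.2 (by have := h.2.1; omega)
  rw [Nat.pow_mod]
  have : c % 24 = 1 ∨ c % 24 = 5 ∨ c % 24 = 7 ∨ c % 24 = 11 ∨ c % 24 = 13 ∨ c % 24 = 17 ∨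
    c % 24 = 19 ∨ c % 24 = 23 := by omega
  rcases this with e | e | e | e | e | e | e | e <;> rw [e]

theorem lv (h : Sm N c) (m : M ≠ 0) (f : 4 ∣ M) (u : ¬ ((2 : ℕ) : ℤ) ∣ A.det) : Pm.Lv c c M A := by
  have k : IsCoprime ((2 : ℕ) : ℤ) c := Nat.isCoprime_iff_coprime.2
    (Nat.coprime_two_left.2 (h.1.odd_of_ne_two (by have := h.2.1; omega)))
  have t {x : ℤ} (e : (M : ℤ) ∣ c * x) := k.dvd_of_dvd_mul_left
    ((Int.natCast_dvd_natCast.2 ((show 2 ∣ 4 by decide).trans f)).trans e)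
  rw [det_fin_two] at u
  exact ⟨c24 h, c24 h, m.bot_lt, f, (Pm.nz_iff m.bot_lt).2 fun b => u
    (((t (b 0)).mul_right _).sub ((t (b 1)).mul_right _)), (Pm.nz_iff m.bot_lt).2 fun b => u
    (((t (b 1)).mul_left _).sub ((t (b 0)).mul_left _))⟩

theorem aq_mul (q : Aq n N s c M) (hp : p.Prime) (h : p ≠ c ∧ p ∉ s) (d : Dx N s) (hc : c.Prime) :
    Aq n N s c (M * p) :=
  ⟨mul_ne_zero q.1 hp.ne_zero, q.2.1.mul_right _, q.2.2.1.mul_right _,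
    q.2.2.2.1.mul_left ((Nat.coprime_primes hp hc).2 h.1), fun l m e => q.2.2.2.2 l m
      ((((Nat.coprime_primes (d l m).1 hp).2 fun e => h.2 (e ▸ m)).pow_left 2).dvd_of_dvd_mul_right e)⟩

theorem nd (d : Dx N s) (hp : p.Prime) (m : p ∉ s) (γ : SL(2, ℤ)) (b : ℕ) :
    ¬ (p : ℤ) ∣ (γ * !![((∏ p ∈ s, p : ℕ) : ℤ), b; 0, 1] : M2).det := fun k =>
  let ⟨q, hq, k⟩ := (Prime.dvd_finset_prod_iff hp.prime _).1
    (Int.natCast_dvd_natCast.1 (show _ ∣ ((∏ p ∈ s, p : ℕ) : ℤ) by simpa using k))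
  m ((Nat.prime_dvd_prime_iff_eq hp (d q hq).1).1 k ▸ hq)

/-- the smoothing operator -/
def so (c : ℕ) (g : GQ) : Gz := (c : Gz) ^ 2 - c * MonoidAlgebra.of ℤ GQ g

theorem op_so (σ : GQ →* AddMonoid.End (Nr.Cl ρ)) (g : GQ) (x : Nr.Cl ρ) :
    op σ (so c g) x = c ^ 2 • x - c • σ g x := by
  rw [so, ← Nat.cast_pow, map_sub, map_mul, op_of, map_natCast, map_natCast]
  rfl

theorem ev_so {R : Type} [CommRing R] (Ψ : GQ →* R) (g : GQ) : Pm.ev Ψ (so c g ^ 2) = sm Ψ g c := by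
  rw [map_pow, so, map_sub, map_mul, map_pow, map_natCast, ev_of, sm]

section

variable (R : Ru X (2 ^ n) Cu (sg ρ) Z) (cu : ξ ∈ Cu) (inv : ∀ γ ∈ Gamma0 N, pS X γ • ξ = ξ)
  (fix : ∀ g, gA X g • ξ = ξ) (γ : SL(2, ℤ))
include cu inv fix

theorem cx0 (h : Sm N c) (q : Aq n N s c M) (u : ¬ ((2 : ℕ) : ℤ) ∣ A.det) :
    Cx X (2 ^ n) Cu ξ N c c M A :=
  have l := lv h q.1 ((show 4 ∣ 2 ^ (n + 2) from ⟨2 ^ n, by ring⟩).trans q.2.1) u
  ⟨l.hc, l.hd, l.pos, l.four, (pow_dvd_pow 2 (n.le_add_right 2)).trans q.2.1, q.2.2.1,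
    cu, inv, fix, l.n0, l.n1⟩

theorem cxb (d : Dx N s) (h : Sm N c) (q : Aq n N s c M) (b : ℕ) :
    Cx X (2 ^ n) Cu ξ N c c M (γ * !![((∏ p ∈ s, p : ℕ) : ℤ), b; 0, 1]) :=
  cx0 cu inv fix h q (nd d Nat.prime_two (fun m => (d 2 m).2.1 rfl) γ b)

include R

theorem raw {y : ℕ → GQ → Fin 2 → Zn n} {S : Finset ℕ} (d : Dx N s) (h : Sm N c) (cS : c ∈ S)
    (sS : s ⊆ S) (hT : ∀ l, l.Prime → ¬ l ∣ N → Hk X ξ l (a l))
    (k : ∀ M, Aq n N s c M → Co (Hm M) ρ (y M) ∧ cl ρ (y M) = ZP Z ξ c c M (∏ p ∈ s, p) γ) :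
    Raw ρ S a (Aq n N s c) y := by
  have key M l (q : Aq n N s c M) (hl : l.Prime) (e : l ≠ c ∧ l ∉ s) : ∃ T,
      Tv (Hm M) (Hm (M * l)) T ∧ cl ρ (∑ t ∈ T, Dr.cj ρ t (y (M * l))) = ∑ b ∈ range (∏ p ∈ s, p),
        ∑ t ∈ T, sg ρ t (ZL Z ξ c c (M * l) (γ * !![((∏ p ∈ s, p : ℕ) : ℤ), b; 0, 1])) ∧
      l.Coprime (c * c) := by
    have q' := aq_mul q hl e d h.1
    obtain ⟨T, t⟩ := ex_tv (Hm_open q'.1) (Hm_le (dvd_mul_right M l))
    have c1 := (Nat.coprime_primes hl h.1).2 e.1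
    refine ⟨T, t, ?_, c1.mul_right c1⟩
    rw [map_sum, sum_comm]
    exact sum_congr rfl fun t _ => by rw [← sg_cl, (k _ q').2, ZP, map_sum]
  refine ⟨fun M q => (k M q).1, fun M q => ?_, fun M l P φ q o lS lM f => ?_⟩
  · have m : 2 ∉ s := fun m => (d 2 m).2.1 rfl
    obtain ⟨T, t, e, c1⟩ := key M 2 q Nat.prime_two ⟨by have := h.2.1; omega, m⟩
    refine ⟨T, t, (cl_eq ρ).1 ?_⟩
    rw [e, (k M q).2, ZP]
    exact sum_congr rfl fun b _ => d2 R ξ N c c _ _ (cxb cu inv fix γ d h q b) 2 Nat.prime_two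
      ((dvd_pow_self 2 (by omega)).trans q.2.1) c1 (nd d Nat.prime_two m γ b) T t
  · have m : l ∉ s := fun m => lS (sS m)
    obtain ⟨T, t, e, c1⟩ := key M l q o.1 ⟨fun e => lS (e ▸ cS), m⟩
    refine ⟨T, t, (cl_eq ρ).1 ?_⟩
    rw [map_nsmul, e, ← sum_nsmul, sum_congr rfl fun b _ => Nr.dl R ξ N c c _ _
      (cxb cu inv fix γ d h q b) l (a l) φ o.1 lM c1 (nd d o.1 m γ b)
      (hT l o.1 fun f => lM (f.trans q.2.2.1)) (cyc_fb o f lM) T t, map_add, map_sub, map_nsmul,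
      map_zsmul, ← sg_cl, ← sg_cl, (k M q).2, ZP]
    simp only [sum_add_distrib, sum_sub_distrib, map_sum, sum_nsmul, sum_zsmul]

theorem smo {e : ℕ} {g g' : GQ} (h : Sm N c) (h' : Sm N e) (q : Aq n N s c M) (yc : Cyc M g c)
    (ye : Cyc M g' e) : op (sg ρ) (so e g' ^ 2) (ZL Z ξ c c M γ) =
      op (sg ρ) (so c g ^ 2) (ZL Z ξ e e M γ) := by
  obtain ⟨x1, e1⟩ := smo1 R (cx0 cu inv fix h q (by simp)) (sw_sl γ) (c24 h') h.2.2 h'.2.2 yc ye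
  obtain ⟨-, e2⟩ := smo2 R x1 (sw_sl γ) (c24 h') h.2.2 h'.2.2 yc ye
  have k := s_comm (fun t m => fix_z R (Nr.det R) x1 (Ha_le q.1 m)) g' g
  simp only [sq (so _ _), map_mul, AddMonoid.End.coe_mul, Function.comp_apply, op_so]
  rw [e1, ← e2]
  simp only [map_sub, map_nsmul, k]
  module

end

/-- **the raw systems and their relation** -/
theorem _root_.Vale.Agent.P014T.Ct.zy (R : Ru X (2 ^ n) Cu (sg ρ) Z) (cu : ξ ∈ Cu)
    (inv : ∀ γ ∈ Gamma0 N, pS X γ • ξ = ξ) (fix : ∀ g, gA X g • ξ = ξ)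
    (hT : ∀ l : ℕ, l.Prime → ¬ l ∣ N → Hk X ξ l (a l))
    (hU : ∀ p : ℕ, p.Prime → p ∣ N → Uk X ξ p (a p)) (γ : SL(2, ℤ))
    (K : ℕ → ℕ → (GQ → Fin 2 → Zn n) → Prop) (e0 : ∀ c M A, Cx X (2 ^ n) Cu ξ N c c M A →
      ∃ y, Co (Hm M) ρ y ∧ cl ρ y = ZL Z ξ c c M A ∧ (A = γ → K c M y)) :
    ∃ y : Fy n, Zy ρ N a y ∧ ∀ c M, Sm N c → Aq n N ∅ c M → K c M (y ∅ c M) := by
  have (s : Finset ℕ) c M : ∃ y, Dx N s → Sm N c → Aq n N s c M → (Co (Hm M) ρ y ∧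
      cl ρ y = ZP Z ξ c c M (∏ p ∈ s, p) γ) ∧ (s = ∅ → K c M y) := by
    by_cases k : Dx N s ∧ Sm N c ∧ Aq n N s c M
    swap
    · exact ⟨0, fun d h q => absurd ⟨d, h, q⟩ k⟩
    choose y y1 y2 y3 using fun b => e0 c M _ (cxb cu inv fix γ k.1 k.2.1 k.2.2 b)
    exact ⟨_, fun _ _ _ => ⟨⟨co_sum y1, by rw [map_sum, sum_congr rfl fun b _ => y2 b, ZP]⟩,
      fun e => by simpa [e] using y3 0 (by simp [e, ← one_fin_two])⟩⟩
  choose y hy using this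
  have y0 c M (h : Sm N c) (q : Aq n N ∅ c M) :
      Co (Hm M) ρ (y ∅ c M) ∧ cl ρ (y ∅ c M) = ZL Z ξ c c M γ := by
    simpa [ZP, ← one_fin_two] using (hy ∅ c M (by simp [Dx]) h q).1
  refine ⟨y, ⟨fun s S c d h cS sS => raw R cu inv fix γ d h cS sS hT fun M q => (hy s c M d h q).1,
    fun s c c' M M' B _ ι Ψ pl d h h' hM q cd g₀ g0 => ?_⟩,
    fun c M h q => (hy ∅ c M (by simp [Dx]) h q).2 rfl⟩
  have q2 : Aq n N s c' M := ⟨q.1, q.2.1, q.2.2.1, q.2.2.2.1.coprime_mul_left_right, q.2.2.2.2⟩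
  have q3 : Aq n N ∅ c M := ⟨q.1, q.2.1, q.2.2.1, q.2.2.2.1.coprime_mul_right_right, by simp⟩
  have q4 : Aq n N ∅ c' M := ⟨q.1, q.2.1, q.2.2.1, q2.2.2.2.1, by simp⟩
  have hψ p (hp : p.Prime) j : ¬ p ∣ j → Cyc j (pl.σ p) p := cyc_fb (pl.ov p hp) (pl.fb p hp)
  have np {e} (h : Sm N e) (q : Aq n N ∅ e M) := hψ e h.1 M (h.1.coprime_iff_not_dvd.1 q.2.2.2.1.symm)
  have le : Hm M ≤ Hm M' := Hm_le ⟨_, hM⟩
  have o := Hm_open q.1
  have r1 := rel_nm (ι := ι) (e := so c' (pl.σ c') ^ 2) (e' := so c (pl.σ c) ^ 2)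
    (fun g m => cd g (le m)) o o (Ha_le q.1) (Ha_le q.1) le_rfl le_rfl
    (y0 _ _ h q3).1 (y0 _ _ h' q4).1 (tv_one _) (tv_one _) (by
      rw [sum_singleton, sum_singleton, map_one (sg ρ), AddMonoid.End.one_apply,
        AddMonoid.End.one_apply, (y0 _ _ h q3).2, (y0 _ _ h' q4).2]
      exact smo R cu inv fix γ h h' q3 (np h q3) (np h' q4)) g0
  obtain ⟨T, t⟩ := ex_tv o le
  have m2 : 2 ^ (n + 2) ∣ M' := (Nat.Coprime.prod_right fun p m => ((Nat.coprime_primes Nat.prime_two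
    (d p m).1).2 (d p m).2.1.symm).pow_left _).dvd_of_dvd_mul_right (hM ▸ q.2.1)
  have r2 := rel_nm (ι := ι) (e := kp a s) (e' := eu a pl.σ s.toList) cd o o (Ha_le q.1)
    (Ha_le q.1) le le (y0 _ _ h' q4).1 (hy s c' M d h' q2).1.1 t t (by
      have := primL R (Nr.det R) (a := a) (φ := pl.σ) s.toList s.nodup_toList (by rwa [prod_toList])
        (cx0 cu inv fix h' q4 (A := γ) (by simp))
        (lv h' (fun e => q.1 (by rw [hM, e, zero_mul])) (.trans ⟨2 ^ n, by ring⟩ m2) (by simp))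
        ((pow_dvd_pow 2 (n.le_add_right 2)).trans m2) dvd_rfl (fun p m => by
          have m := mem_toList.1 m
          obtain ⟨a1, -, a3, -⟩ := d p m
          have := q2.2.2.2.1.coprime_dvd_left (a3.trans q.2.2.1)
          exact ⟨a1, fun e => q.2.2.2.2 p m (hM ▸ sq p ▸ mul_dvd_mul e (dvd_prod_of_mem _ m)),
            this.mul_right this, by simpa using (Nat.prime_iff_prime_int.1 a1).not_dvd_one,
            hU p a1 a3, hψ p a1⟩) t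
      rwa [prod_toList, prod_map_toList, ← (y0 _ _ h' q4).2, ← (hy s c' M d h' q2).1.2, ← op_int] at this)
    g0
  rw [ev_so, ev_so] at r1
  rw [map_intCast, ev_eu, prod_map_toList] at r2
  have z u := ch_iff.1 (nm_ch (ρ := ρ) (ι := ι) (cd g₀ (le (Ha_le q.1 g0))) u)
  rw [ch_iff, mul_assoc, mul_assoc, mul_comm, mul_comm (ι _ ^ 2), mul_smul, mul_smul (_ * _), map_smul,
    map_smul _ (_ * _), ← z, ← z, ← map_smul, mul_smul, r1, smul_comm, r2, ← mul_smul]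
  exact map_smul _ _ _

end Vale.Agent.P014T.Ct.Zz
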